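import Mathlib

/-!
# Row 250, parametrised surfaces (helper48), part 1: pointwise algebra

`n` = unit normal of the base surface, `J a c = D a (X c)`, `K a b c = D a (D b (X c))`.
Everything is a polynomial over a commutative ring.
-/

set_option autoImplicit false

noncomputable section

namespace Crest.Agent.N250.Gc

variable {R : Type} [CommRing R]

/-- scalar product -/
def dot (u v : Fin 3 → R) : R := ∑ c, u c * v c

/-- cross product -/
def cr (u v : Fin 3 → R) (c : Fin 3) : R := u (c + 1) * v (c + 2) - u (c + 2) * v (c + 1)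

/-- induced metric -/
def gm (J : Fin 3 → Fin 3 → R) (a b : Fin 3) : R := dot (J a) (J b)

/-- `tr g • 1 - g`, the adjugate of the metric on the tangent plane -/
def adj (J : Fin 3 → Fin 3 → R) (a b : Fin 3) : R :=
  (if a = b then ∑ e, gm J e e else 0) - gm J a b

/-- the dual frame times `G2` -/
def Wv (J : Fin 3 → Fin 3 → R) (a c : Fin 3) : R := ∑ b, adj J a b * J b c

/-- the normal of the image; its length is the area density -/
def Nv (n : Fin 3 → R) (J : Fin 3 → Fin 3 → R) (c : Fin 3) : R :=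
  ∑ a, n a * cr (J (a + 1)) (J (a + 2)) c

/-- the square of the area density -/
def G2 (n : Fin 3 → R) (J : Fin 3 → Fin 3 → R) : R := dot (Nv n J) (Nv n J)

/-- mean curvature times `|N|³` -/
def HP (n : Fin 3 → R) (J : Fin 3 → Fin 3 → R) (K : Fin 3 → Fin 3 → Fin 3 → R) : R :=
  -∑ a, ∑ b, adj J a b * dot (K a b) (Nv n J)

/-- second fundamental form times `|N|⁵` -/
def AP (n : Fin 3 → R) (J : Fin 3 → Fin 3 → R) (K : Fin 3 → Fin 3 → Fin 3 → R) (b c : Fin 3) : R :=
  -∑ a, ∑ e, Wv J a b * Wv J e c * dot (K a e) (Nv n J)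

/-- twice the shrinker quantity `H - ⟨x, n⟩ / 2` times `|N|³` -/
def EL (n x : Fin 3 → R) (J : Fin 3 → Fin 3 → R) (K : Fin 3 → Fin 3 → Fin 3 → R) : R :=
  2 * HP n J K - dot x (Nv n J) * G2 n J

theorem dot_comm (u v : Fin 3 → R) : dot u v = dot v u :=
  Finset.sum_congr rfl fun _ _ => mul_comm _ _

theorem gm_symm (J : Fin 3 → Fin 3 → R) (a b : Fin 3) : gm J a b = gm J b a := dot_comm _ _

theorem adj_symm (J : Fin 3 → Fin 3 → R) (a b : Fin 3) : adj J a b = adj J b a := by
  simp only [adj, gm_symm J a b, eq_comm]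

section Map

variable {R' : Type} [CommRing R'] (φ : R →+* R') (n x u v : Fin 3 → R) (J : Fin 3 → Fin 3 → R)
  (K : Fin 3 → Fin 3 → Fin 3 → R)

theorem map_dot : φ (dot u v) = dot (fun c => φ (u c)) fun c => φ (v c) := by
  simp only [dot, map_sum, map_mul]

theorem map_cr (c : Fin 3) : φ (cr u v c) = cr (fun c => φ (u c)) (fun c => φ (v c)) c := by
  simp only [cr, map_sub, map_mul]

theorem map_gm (a b : Fin 3) : φ (gm J a b) = gm (fun a c => φ (J a c)) a b := map_dot _ _ _

theorem map_adj (a b : Fin 3) : φ (adj J a b) = adj (fun a c => φ (J a c)) a b := by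
  simp only [adj, map_sub, apply_ite φ, map_sum, map_gm, map_zero]

theorem map_Wv (a c : Fin 3) : φ (Wv J a c) = Wv (fun a c => φ (J a c)) a c := by
  simp only [Wv, map_sum, map_mul, map_adj]

theorem map_Nv (c : Fin 3) : φ (Nv n J c) = Nv (fun a => φ (n a)) (fun a c => φ (J a c)) c := by
  simp only [Nv, map_sum, map_mul, map_cr]

theorem map_G2 : φ (G2 n J) = G2 (fun a => φ (n a)) fun a c => φ (J a c) := by
  simp only [G2, map_dot, map_Nv]

theorem map_HP : φ (HP n J K) =
    HP (fun a => φ (n a)) (fun a c => φ (J a c)) fun a b c => φ (K a b c) := by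
  simp only [HP, map_neg, map_sum, map_mul, map_adj, map_dot, map_Nv]

theorem map_AP (b c : Fin 3) : φ (AP n J K b c) =
    AP (fun a => φ (n a)) (fun a c => φ (J a c)) (fun a b c => φ (K a b c)) b c := by
  simp only [AP, map_neg, map_sum, map_mul, map_Wv, map_dot, map_Nv]

theorem map_EL : φ (EL n x J K) = EL (fun a => φ (n a)) (fun a => φ (x a))
    (fun a c => φ (J a c)) fun a b c => φ (K a b c) := by
  simp only [EL, map_sub, map_mul, map_HP, map_dot, map_Nv, map_G2, map_ofNat]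

end Map

theorem f01 : (0 : Fin 3) + 1 = 1 := rfl
theorem f02 : (0 : Fin 3) + 2 = 2 := rfl
theorem f11 : (1 : Fin 3) + 1 = 2 := rfl
theorem f12 : (1 : Fin 3) + 2 = 0 := rfl
theorem f21 : (2 : Fin 3) + 1 = 0 := rfl
theorem f22 : (2 : Fin 3) + 2 = 1 := rfl

theorem fin3 {P : Fin 3 → Prop} (h0 : P 0) (h1 : P 1) (h2 : P 2) (a : Fin 3) : P a := by
  fin_cases a
  exacts [h0, h1, h2]

/-- the rows of the cofactor matrix -/
def cof (J : Fin 3 → Fin 3 → R) (a : Fin 3) : Fin 3 → R := cr (J (a + 1)) (J (a + 2))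

theorem W_J_poly (J : Fin 3 → Fin 3 → R) (a b : Fin 3) : dot (Wv J a) (J b) =
    (if a = b then ∑ e, dot (cof J e) (cof J e) else 0) - dot (cof J a) (cof J b) := by
  induction a using fin3 <;> induction b using fin3 <;>
    simp [dot, Wv, adj, gm, cof, cr, Fin.sum_univ_three, f11, f12, f21, f22] <;> ring

theorem J_W_poly (J : Fin 3 → Fin 3 → R) (b c : Fin 3) : ∑ a, Wv J a b * J a c =
    (if b = c then ∑ e, dot (cof J e) (cof J e) else 0) - ∑ e, cof J e b * cof J e c := by
  induction b using fin3 <;> induction c using fin3 <;>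
    simp [dot, Wv, adj, gm, cof, cr, Fin.sum_univ_three, f11, f12, f21, f22] <;> ring

theorem e2_poly (J : Fin 3 → Fin 3 → R) : 2 * ∑ e, dot (cof J e) (cof J e) =
    (∑ e, gm J e e) * (∑ e, gm J e e) - ∑ a, ∑ b, gm J a b * gm J a b := by
  simp only [dot, gm, cof, cr, Fin.sum_univ_three, f01, f02, f11, f12, f21, f22]; ring

theorem dot_W (J : Fin 3 → Fin 3 → R) (a : Fin 3) (v : Fin 3 → R) :
    dot (Wv J a) v = ∑ b, adj J a b * dot (J b) v := by
  simp only [dot, Wv, Finset.mul_sum, Finset.sum_mul, mul_assoc]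
  exact Finset.sum_comm

/-- `n` is a unit vector in the left kernel of `J` -/
structure Fr (n : Fin 3 → R) (J : Fin 3 → Fin 3 → R) : Prop where
  nn : ∑ a, n a * n a = 1
  nJ : ∀ c, ∑ a, n a * J a c = 0

namespace Fr

variable {n : Fin 3 → R} {J : Fin 3 → Fin 3 → R} (h : Fr n J)
include h

theorem cof_eq (a c : Fin 3) : cof J a c = n a * Nv n J c := by
  have h1 := h.nn
  have h2 := h.nJ (c + 1)
  have h3 := h.nJ (c + 2)
  simp only [Fin.sum_univ_three] at h1 h2 h3
  induction a using fin3 <;>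
    simp only [cof, Nv, cr, Fin.sum_univ_three, f01, f02, f11, f12, f21, f22]
  · linear_combination (-(J 1 (c + 1) * J 2 (c + 2) - J 1 (c + 2) * J 2 (c + 1))) * h1
      + n 1 * (h2 * J 2 (c + 2) - h3 * J 2 (c + 1)) + n 2 * (J 1 (c + 1) * h3 - J 1 (c + 2) * h2)
  · linear_combination (-(J 2 (c + 1) * J 0 (c + 2) - J 2 (c + 2) * J 0 (c + 1))) * h1
      + n 2 * (h2 * J 0 (c + 2) - h3 * J 0 (c + 1)) + n 0 * (J 2 (c + 1) * h3 - J 2 (c + 2) * h2)
  · linear_combination (-(J 0 (c + 1) * J 1 (c + 2) - J 0 (c + 2) * J 1 (c + 1))) * h1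
      + n 0 * (h2 * J 1 (c + 2) - h3 * J 1 (c + 1)) + n 1 * (J 0 (c + 1) * h3 - J 0 (c + 2) * h2)

theorem cof_cof (a b : Fin 3) : dot (cof J a) (cof J b) = n a * n b * G2 n J := by
  simp only [G2, dot, h.cof_eq, Finset.mul_sum]
  exact Finset.sum_congr rfl fun c _ => by ring

theorem G2_eq : ∑ e, dot (cof J e) (cof J e) = G2 n J := by
  simp only [h.cof_cof, ← Finset.sum_mul, h.nn, one_mul]

theorem two_G2 : 2 * G2 n J =
    (∑ e, gm J e e) * (∑ e, gm J e e) - ∑ a, ∑ b, gm J a b * gm J a b := by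
  rw [← h.G2_eq, e2_poly]

/-- `⟨W a, J b⟩ = |N|² P a b` -/
theorem W_J (a b : Fin 3) :
    dot (Wv J a) (J b) = G2 n J * ((if a = b then 1 else 0) - n a * n b) := by
  rw [W_J_poly, h.G2_eq, h.cof_cof]
  split_ifs <;> ring

/-- `∑ W a ⊗ J a = |N|² - N ⊗ N` -/
theorem J_W (b c : Fin 3) :
    ∑ a, Wv J a b * J a c = (if b = c then G2 n J else 0) - Nv n J b * Nv n J c := by
  rw [J_W_poly, h.G2_eq]
  have : ∀ e, cof J e b * cof J e c = n e * n e * (Nv n J b * Nv n J c) := fun e => by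
    rw [h.cof_eq, h.cof_eq]; ring
  simp only [this, ← Finset.sum_mul, h.nn, one_mul]

theorem N_J (b : Fin 3) : dot (Nv n J) (J b) = 0 := by
  have h0 := h.nJ 0
  have h1 := h.nJ 1
  have h2 := h.nJ 2
  simp only [Fin.sum_univ_three] at h0 h1 h2
  induction b using fin3 <;>
    simp only [dot, Nv, cr, Fin.sum_univ_three, f01, f02, f11, f12, f21, f22]
  · linear_combination h0 * (J 1 1 * J 2 2 - J 1 2 * J 2 1) + h1 * (J 1 2 * J 2 0 - J 1 0 * J 2 2)
      + h2 * (J 1 0 * J 2 1 - J 1 1 * J 2 0)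
  · linear_combination h0 * (J 2 1 * J 0 2 - J 2 2 * J 0 1) + h1 * (J 2 2 * J 0 0 - J 2 0 * J 0 2)
      + h2 * (J 2 0 * J 0 1 - J 2 1 * J 0 0)
  · linear_combination h0 * (J 0 1 * J 1 2 - J 0 2 * J 1 1) + h1 * (J 0 2 * J 1 0 - J 0 0 * J 1 2)
      + h2 * (J 0 0 * J 1 1 - J 0 1 * J 1 0)

theorem n_gm (b : Fin 3) : ∑ a, n a * gm J a b = 0 := by
  simp only [gm, dot, Finset.mul_sum, ← mul_assoc]
  rw [Finset.sum_comm]
  simp only [← Finset.sum_mul, h.nJ, zero_mul, Finset.sum_const_zero]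

theorem n_adj (b : Fin 3) : ∑ a, n a * adj J a b = n b * ∑ e, gm J e e := by
  simp only [adj, mul_sub, Finset.sum_sub_distrib, h.n_gm, mul_ite, mul_zero, Finset.sum_ite_eq',
    Finset.mem_univ, if_true, sub_zero]

theorem n_W (c : Fin 3) : ∑ a, n a * Wv J a c = 0 := by
  simp only [Wv, Finset.mul_sum, ← mul_assoc]
  rw [Finset.sum_comm]
  simp only [← Finset.sum_mul, h.n_adj]
  have : ∀ b, (n b * ∑ e, gm J e e) * J b c = (∑ e, gm J e e) * (n b * J b c) := fun b => by ring
  simp only [this, ← Finset.mul_sum, h.nJ, mul_zero]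

theorem N_W (a : Fin 3) : dot (Nv n J) (Wv J a) = 0 := by
  rw [dot_comm, dot_W]
  simp only [dot_comm (J _), h.N_J, mul_zero, Finset.sum_const_zero]

theorem W_W (a e : Fin 3) :
    dot (Wv J a) (Wv J e) = G2 n J * (adj J a e - n a * n e * ∑ f, gm J f f) := by
  have : dot (Wv J a) (Wv J e) = ∑ b, adj J e b * dot (Wv J a) (J b) := by
    rw [dot_comm, dot_W]
    exact Finset.sum_congr rfl fun b _ => by rw [dot_comm]
  have h2 : ∀ b, adj J e b * (G2 n J * ((if a = b then 1 else 0) - n a * n b)) =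
      G2 n J * (if a = b then adj J e b else 0) - G2 n J * n a * (n b * adj J b e) := fun b => by
    rw [adj_symm J b e]; split_ifs <;> ring
  simp only [this, h.W_J, h2, Finset.sum_sub_distrib, ← Finset.mul_sum, h.n_adj, Finset.sum_ite_eq,
    Finset.mem_univ, if_true, adj_symm J e a]
  ring

/-- decomposition of a vector -/
theorem dec (v : Fin 3 → R) (c : Fin 3) :
    G2 n J * v c = ∑ a, Wv J a c * dot (J a) v + Nv n J c * dot (Nv n J) v := by
  have : ∑ a, Wv J a c * dot (J a) v = ∑ b, (∑ a, Wv J a c * J a b) * v b := by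
    simp only [dot, Finset.mul_sum, Finset.sum_mul, mul_assoc]
    exact Finset.sum_comm
  rw [this]
  simp only [h.J_W, sub_mul, Finset.sum_sub_distrib, ite_mul, zero_mul, Finset.sum_ite_eq,
    Finset.mem_univ, if_true, dot, Finset.mul_sum, mul_assoc]
  ring

/-- the same with the roles of the two frames exchanged -/
theorem dec' (v : Fin 3 → R) (c : Fin 3) :
    G2 n J * v c = ∑ a, J a c * dot (Wv J a) v + Nv n J c * dot (Nv n J) v := by
  have : ∑ a, J a c * dot (Wv J a) v = ∑ b, (∑ a, Wv J a b * J a c) * v b := by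
    simp only [dot, Finset.mul_sum, Finset.sum_mul]
    rw [Finset.sum_comm]
    exact Finset.sum_congr rfl fun b _ => Finset.sum_congr rfl fun a _ => by ring
  have h2 : ∀ b, ((if b = c then G2 n J else 0) - Nv n J b * Nv n J c) * v b =
      (if b = c then G2 n J * v b else 0) - Nv n J c * (Nv n J b * v b) := fun b => by
    split_ifs <;> ring
  rw [this]
  simp only [h.J_W, h2, Finset.sum_sub_distrib, Finset.sum_ite_eq', Finset.mem_univ, if_true,
    ← Finset.mul_sum, dot]
  ring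

end Fr

end Crest.Agent.N250.Gc

end
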