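import Crest.Agent.N250.Re.Pt
import Crest.Agent.N250.Gc.Par

/-!
# Row 250, parametrised surfaces (helper48), part 3: the image of an embedding of a track
-/

set_option autoImplicit false
open MeasureTheory Set Filter Topology Function
open scoped ContDiff InnerProductSpace
open Crest.GeometryTopology.MCF

noncomputable section

namespace Crest.Agent.N250

open Gc

/-- the time preserving map of spacetime -/
def hat (X : ST → E) (p : ST) : ST := (X p, p.2)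

theorem inner_eq_dot (v w : E) : ⟪v, w⟫_ℝ = dot (fun c => v c) fun c => w c := inner_eq_sum v w

namespace Mv

variable (F : Mv) (X : ST → E)

/-- components of a vector valued function -/
def cp (X : ST → E) (c : Fin 3) (p : ST) : ℝ := X p c

/-- first derivatives -/
def JX (p : ST) (a c : Fin 3) : ℝ := F.D a (cp X c) p

/-- second derivatives -/
def KX (p : ST) (a b c : Fin 3) : ℝ := F.D a (F.D b (cp X c)) p

/-- the normal of the image; its length is the area density -/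
def NX (p : ST) : E := WithLp.toLp 2 (Nv (fun a => F.nu a p) (F.JX X p))

/-- the area density -/
def sX (p : ST) : ℝ := ‖F.NX X p‖

/-- the dual frame times `sX ^ 2` -/
def WX (p : ST) : Fin 3 → Fin 3 → ℝ := Wv (F.JX X p)

/-- `H sX ^ 3` -/
def HX (p : ST) : ℝ := HP (fun a => F.nu a p) (F.JX X p) (F.KX X p)

/-- `A sX ^ 5` -/
def AX (p : ST) : Fin 3 → Fin 3 → ℝ := AP (fun a => F.nu a p) (F.JX X p) (F.KX X p)

/-- `2 shr sX ^ 3` -/
def ELX (p : ST) : ℝ := EL (fun a => F.nu a p) (fun c => X p c) (F.JX X p) (F.KX X p)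

/-- `X` is a smooth embedding of the track -/
structure Emb : Prop where
  reg : F.Reg
  sm : F.Sm X
  ne : ∀ p ∈ F.M, F.NX X p ≠ 0
  emb : ∀ p ∈ F.M, ∀ U ∈ 𝓝 p, ∃ U' ∈ 𝓝 (hat X p), ∀ q ∈ F.M, hat X q ∈ U' → q ∈ U

/-- `G` is the image of `F` under the embedding `X` -/
structure Par (G : Mv) (X : ST → E) : Prop extends F.Emb X where
  M_eq : G.M = hat X '' F.M
  n_eq : ∀ p ∈ F.M, G.n (hat X p) = (F.sX X p)⁻¹ • F.NX X p
  V_eq : ∀ p ∈ F.M, G.V (hat X p) = ⟪G.n (hat X p), F.td X p (F.V p • F.n p, 1)⟫_ℝ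

/-- the inverse of `hat X` on the image -/
def inv (y : ST) : ST := invFunOn (hat X) F.M y

open Classical in
/-- the image -/
def img : Mv where
  M := hat X '' F.M
  n y := if y ∈ hat X '' F.M then (F.sX X (F.inv X y))⁻¹ • F.NX X (F.inv X y) else 0
  V y := if y ∈ hat X '' F.M then ⟪(F.sX X (F.inv X y))⁻¹ • F.NX X (F.inv X y),
    F.td X (F.inv X y) (F.V (F.inv X y) • F.n (F.inv X y), 1)⟫_ℝ else 0

variable {F X} {G : Mv} {p q w : ST}

theorem NX_apply (p : ST) (c : Fin 3) : F.NX X p c = Nv (fun a => F.nu a p) (F.JX X p) c := rfl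

theorem sX_sq (p : ST) : F.sX X p ^ 2 = G2 (fun a => F.nu a p) (F.JX X p) := by
  rw [sX, ← real_inner_self_eq_norm_sq, inner_eq_dot]; rfl

theorem sX_nonneg (p : ST) : 0 ≤ F.sX X p := norm_nonneg _

theorem sX_eq (p : ST) : F.sX X p = √(G2 (fun a => F.nu a p) (F.JX X p)) := by
  rw [← sX_sq, Real.sqrt_sq (sX_nonneg p)]

theorem Sm.cp (hX : F.Sm X) (c : Fin 3) : F.Sm (cp X c) :=
  (EuclideanSpace.proj (𝕜 := ℝ) c).contDiff.comp_contDiffOn hX

theorem Sm.hat (hX : F.Sm X) : F.Sm (hat X) := ContDiffOn.prodMk hX contDiffOn_snd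

theorem sm_of_cp (hX : ∀ c, F.Sm (cp X c)) : F.Sm X := contDiffOn_euclidean.2 hX

namespace Reg

variable (h : F.Reg)
include h

theorem fr (hp : p ∈ F.M) (X : ST → E) : Fr (fun a => F.nu a p) (F.JX X p) :=
  ⟨h.nn hp, fun _ => h.n_D hp _⟩

theorem JX_eq (hX : F.Sm X) (hp : p ∈ F.M) (a c : Fin 3) :
    F.JX X p a c = F.td X p (F.PL p (ee a), 0) c :=
  h.td_coord hp (hX.diffW hp) (h.tg_PL hp _) c

theorem td_X (hX : F.Sm X) (hp : p ∈ F.M) {v : E} (hv : ⟪F.n p, v⟫_ℝ = 0) (c : Fin 3) :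
    F.td X p (v, 0) c = ∑ a, v a * F.JX X p a c := by
  rw [← h.td_coord hp (hX.diffW hp) (show F.Tg p (v, 0) by simp [Tg, hv]) c]
  exact td_perp _ hv

theorem N_td (hX : F.Sm X) (hp : p ∈ F.M) {v : E} (hv : ⟪F.n p, v⟫_ℝ = 0) :
    ⟪F.NX X p, F.td X p (v, 0)⟫_ℝ = 0 := by
  have e := (h.fr hp X).N_J
  have e0 := e 0
  have e1 := e 1
  have e2 := e 2
  simp only [inner_eq_sum, h.td_X hX hp hv, NX_apply, dot, Fin.sum_univ_three] at e0 e1 e2 ⊢
  linear_combination v 0 * e0 + v 1 * e1 + v 2 * e2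

/-- the smooth functions `X c` -/
def mX (hX : F.Sm X) (c : Fin 3) : F.SmR := mk' (cp X c) (hX.cp c)

variable (hX : F.Sm X) (hp : p ∈ F.M)

theorem ev_n (a : Fin 3) : ev hp (h.mov.n a) = F.nu a p := rfl

theorem ev_Jm (a c : Fin 3) : ev hp (h.mov.Jm (mX hX) a c) = F.JX X p a c := by
  simp only [Mov.Jm, mX, h.mov_D, ev_mk, JX]

theorem ev_Km (a b c : Fin 3) : ev hp (h.mov.Km (mX hX) a b c) = F.KX X p a b c := by
  simp only [Mov.Km, mX, h.mov_D, ev_mk, KX]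

theorem ev_NX (c : Fin 3) : ev hp (h.mov.NX (mX hX) c) = F.NX X p c :=
  (map_Nv (ev hp).toRingHom _ _ c).trans (by
    simp only [AlgHom.toRingHom_eq_coe, RingHom.coe_coe, h.ev_Jm, h.ev_n]; rfl)

theorem ev_WX (a c : Fin 3) : ev hp (h.mov.WX (mX hX) a c) = F.WX X p a c :=
  (map_Wv (ev hp).toRingHom _ a c).trans (by
    simp only [AlgHom.toRingHom_eq_coe, RingHom.coe_coe, h.ev_Jm]; rfl)

theorem ev_GX : ev hp (h.mov.GX (mX hX)) = F.sX X p ^ 2 :=
  (map_G2 (ev hp).toRingHom _ _).trans (by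
    simp only [AlgHom.toRingHom_eq_coe, RingHom.coe_coe, h.ev_Jm, h.ev_n, sX_sq])

theorem ev_HX : ev hp (h.mov.HX (mX hX)) = F.HX X p :=
  (map_HP (ev hp).toRingHom _ _ _).trans (by
    simp only [AlgHom.toRingHom_eq_coe, RingHom.coe_coe, h.ev_Jm, h.ev_Km, h.ev_n]; rfl)

theorem ev_AX (a b : Fin 3) : ev hp (h.mov.AX (mX hX) a b) = F.AX X p a b :=
  (map_AP (ev hp).toRingHom _ _ _ a b).trans (by
    simp only [AlgHom.toRingHom_eq_coe, RingHom.coe_coe, h.ev_Jm, h.ev_Km, h.ev_n]; rfl)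

theorem ev_ELX : ev hp (h.mov.ELX (mX hX)) = F.ELX X p :=
  (map_EL (ev hp).toRingHom _ _ _ _).trans (by
    simp only [AlgHom.toRingHom_eq_coe, RingHom.coe_coe, h.ev_Jm, h.ev_Km, h.ev_n]; rfl)

omit h in
theorem sm_of_ev {f : ST → ℝ} (u : F.SmR) (e : ∀ p (hp : p ∈ F.M), ev hp u = f p) : F.Sm f :=
  Sm.congr u.2 fun q hq => by rw [← e q hq, ext0_apply _ hq]; rfl

include hX

theorem sm_JX (a c : Fin 3) : F.Sm fun p => F.JX X p a c := h.sm_D (hX.cp c) a

theorem sm_KX (a b c : Fin 3) : F.Sm fun p => F.KX X p a b c := h.sm_D (h.sm_D (hX.cp c) b) a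

theorem sm_NX : F.Sm (F.NX X) := sm_of_cp fun c => sm_of_ev _ fun _ hp => h.ev_NX hX hp c

theorem sm_WX (a c : Fin 3) : F.Sm fun p => F.WX X p a c :=
  sm_of_ev _ fun _ hp => h.ev_WX hX hp a c

theorem sm_HX : F.Sm (F.HX X) := sm_of_ev _ fun _ hp => h.ev_HX hX hp

theorem sm_AX (a b : Fin 3) : F.Sm fun p => F.AX X p a b :=
  sm_of_ev _ fun _ hp => h.ev_AX hX hp a b

theorem sm_ELX : F.Sm (F.ELX X) := sm_of_ev _ fun _ hp => h.ev_ELX hX hp

theorem sm_sX (hN : ∀ p ∈ F.M, F.NX X p ≠ 0) : F.Sm (F.sX X) := (h.sm_NX hX).norm ℝ hN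

theorem sm_si (hN : ∀ p ∈ F.M, F.NX X p ≠ 0) : F.Sm fun p => (F.sX X p)⁻¹ :=
  ContDiffOn.inv (h.sm_sX hX hN) fun p hp => norm_ne_zero_iff.2 (hN p hp)

/-- `1 / sX` as a smooth function -/
def mS (hN : ∀ p ∈ F.M, F.NX X p ≠ 0) : F.SmR := mk' _ (h.sm_si hX hN)

theorem mS_sq (hN : ∀ p ∈ F.M, F.NX X p ≠ 0) :
    h.mS hX hN * h.mS hX hN * h.mov.GX (mX hX) = 1 := SmR_ext fun p hp => by
  have : F.sX X p ≠ 0 := norm_ne_zero_iff.2 (hN p hp)
  rw [map_mul, map_mul, h.ev_GX, map_one, mS, ev_mk]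
  field_simp

/-- a vector orthogonal to the image plane is a multiple of `NX` -/
theorem perp_eq (hp : p ∈ F.M) {g : E} (hg : ∀ a, ⟪g, F.td X p (F.PL p (ee a), 0)⟫_ℝ = 0) :
    F.sX X p ^ 2 • g = ⟪F.NX X p, g⟫_ℝ • F.NX X p := by
  ext c
  have e := (h.fr hp X).dec (fun c => g c) c
  have e2 : ∀ a, dot (F.JX X p a) (fun c => g c) = 0 := fun a => by
    rw [← hg a, inner_eq_dot, dot_comm]
    congr 1
    exact funext fun c => h.JX_eq hX hp a c
  simp only [e2, mul_zero, Finset.sum_const_zero, zero_add, ← sX_sq] at e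
  simp only [PiLp.smul_apply, smul_eq_mul, e, inner_eq_dot, NX_apply, mul_comm]

end Reg

namespace Emb

variable (h : F.Emb X)
include h

theorem inj : InjOn (hat X) F.M := fun p hp q hq e => by
  by_contra hne
  obtain ⟨U', h1, h2⟩ := h.emb q hq {p}ᶜ (isOpen_compl_singleton.mem_nhds fun e => hne e.symm)
  exact h2 p hp (e ▸ mem_of_mem_nhds h1) rfl

theorem s_pos (hp : p ∈ F.M) : 0 < F.sX X p := norm_pos_iff.2 (h.ne p hp)

theorem inv_hat (hp : p ∈ F.M) : F.inv X (hat X p) = p := h.inj.leftInvOn_invFunOn hp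

theorem par : F.Par (F.img X) X where
  toEmb := h
  M_eq := rfl
  n_eq p hp := by simp only [img, if_pos (mem_image_of_mem _ hp), h.inv_hat hp]
  V_eq p hp := by simp only [img, if_pos (mem_image_of_mem _ hp), h.inv_hat hp]

end Emb

namespace Par

variable (h : F.Par G X)
include h

theorem mem (hp : p ∈ F.M) : hat X p ∈ G.M := h.M_eq ▸ mem_image_of_mem _ hp

theorem maps : MapsTo (hat X) F.M G.M := fun _ hp => h.mem hp

theorem exists_pre {y : ST} (hy : y ∈ G.M) : ∃ p ∈ F.M, hat X p = y := by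
  rwa [h.M_eq] at hy

/-- the image of a tangent vector -/
theorem n_td (hp : p ∈ F.M) (hw : F.Tg p w) : G.Tg (hat X p) (F.td X p w, w.2) := by
  have e : w = (F.PL p w.1, 0) + w.2 • (F.V p • F.n p, 1) := by
    ext1
    · simp only [PL, Prod.fst_add, Prod.smul_fst, smul_smul]
      rw [show ⟪F.n p, w.1⟫_ℝ = F.V p * w.2 from hw, mul_comm, sub_add_cancel]
    · simp
  have e2 : ⟪F.n p, F.PL p w.1⟫_ℝ = 0 := by simpa [Tg] using h.reg.tg_PL hp w.1
  rw [Tg, h.V_eq p hp]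
  conv_lhs => rw [e, map_add, map_smul, inner_add_right, inner_smul_right]
  conv_lhs => rw [h.n_eq p hp, inner_smul_left, h.reg.N_td h.sm hp e2, ← h.n_eq p hp]
  ring

/-- local defining function and local inverse -/
theorem exists_loc (hp : p ∈ F.M) : ∃ (W : Set ST) (φ : ST → ℝ) (Ψ : ST → ST), hat X p ∈ W ∧
    G.Loc W φ ∧ ContDiffOn ℝ ∞ Ψ W ∧ ∀ q ∈ F.M, hat X q ∈ W → Ψ (hat X q) = q := by
  obtain ⟨W0, φ0, hW0, L⟩ := h.reg p hp
  obtain ⟨U, Y, hU, hpU, hY, hXY⟩ := h.reg.exists_ext h.sm hp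
  set ν : E := (F.sX X p)⁻¹ • F.NX X p with hν
  have hνν : ⟪ν, ν⟫_ℝ = 1 := by
    rw [real_inner_self_eq_norm_sq, hν, norm_smul, norm_inv, Real.norm_of_nonneg (sX_nonneg p),
      ← sX, inv_mul_cancel₀ (h.s_pos hp).ne', one_pow]
  set γ := ‖gradX φ0 p.1 p.2‖ with hγ
  have hγ0 : 0 < γ := L.norm_pos hW0
  set c := (1 - ⟪ν, fderiv ℝ Y p (F.n p, 0)⟫_ℝ) / γ with hc
  set Θ : ST → ST := fun q => (Y q + (c * φ0 q) • ν, q.2) with hΘ
  have hO : IsOpen (U ∩ W0) := hU.inter L.isOpen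
  have hΘs : ContDiffOn ℝ ∞ Θ (U ∩ W0) :=
    ((hY.mono inter_subset_left).add ((contDiffOn_const.mul (L.sm.mono inter_subset_right)).smul
      contDiffOn_const)).prodMk contDiffOn_snd
  have dY : ∀ q ∈ U, DifferentiableAt ℝ Y q := fun q hq =>
    (hY.contDiffAt (hU.mem_nhds hq)).differentiableAt (by simp)
  have dΘ : ∀ q ∈ U ∩ W0, HasFDerivAt Θ ((fderiv ℝ Y q + (c • fderiv ℝ φ0 q).smulRight ν).prod
      (ContinuousLinearMap.snd ℝ E ℝ)) q := fun q hq =>
    ((dY q hq.1).hasFDerivAt.add (((L.diffAt hq.2).hasFDerivAt.const_mul c).smul_const ν)).prodMk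
      hasFDerivAt_snd
  have tY : ∀ q ∈ U, q ∈ F.M → ∀ w, F.Tg q w → F.td X q w = fderiv ℝ Y q w := fun q hq hM w hw =>
    h.reg.td_ext hM (dY q hq) (by
      filter_upwards [nhdsWithin_le_nhds (hU.mem_nhds hq), self_mem_nhdsWithin] with r h1 h2
        using hXY r h1 h2) hw
  have dT' : ∀ q ∈ U ∩ W0, q ∈ F.M → ∀ w, F.Tg q w → fderiv ℝ Θ q w = (F.td X q w, w.2) :=
    fun q hq hM w hw => by
      rw [(dΘ q hq).fderiv, tY q hq.1 hM w hw]
      simp [(L.tg_iff hq.2 hM).1 hw]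
  have dN : ⟪ν, (fderiv ℝ Θ p (F.n p, 0)).1⟫_ℝ = 1 := by
    rw [(dΘ p ⟨hpU, hW0⟩).fderiv]
    simp only [ContinuousLinearMap.prod_apply, ContinuousLinearMap.add_apply,
      ContinuousLinearMap.smulRight_apply, ContinuousLinearMap.smul_apply, inner_add_right,
      inner_smul_right, hνν, L.fderiv_eq hW0 hp, h.reg.inner_n hp, smul_eq_mul, ← hγ, hc]
    field_simp
    ring
  have hΘM : ∀ q ∈ U ∩ W0, q ∈ F.M → Θ q = hat X q := fun q hq hM => by
    simp only [hΘ, (L.mem q hq.2).1 hM, mul_zero, zero_smul, add_zero, ← hXY q hq.1 hM, hat]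
  have hinj : Injective (fderiv ℝ Θ p) := by
    rw [injective_iff_map_eq_zero]
    intro w hw
    have h2 : w.2 = 0 := by
      have := congrArg Prod.snd hw
      rwa [(dΘ p ⟨hpU, hW0⟩).fderiv] at this
    have e : w = (F.PL p w.1, 0) + ⟪F.n p, w.1⟫_ℝ • (F.n p, 0) := by
      ext1
      · simp [PL]
      · simp [h2]
    have e2 : ⟪F.n p, F.PL p w.1⟫_ℝ = 0 := by simpa [Tg] using h.reg.tg_PL hp w.1
    have h3 := congrArg (fun y : ST => ⟪ν, y.1⟫_ℝ) hw
    rw [e, map_add, map_smul, dT' p ⟨hpU, hW0⟩ hp _ (h.reg.tg_PL hp _)] at h3 hw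
    simp only [Prod.fst_add, Prod.smul_fst, inner_add_right, inner_smul_right, dN, Prod.fst_zero,
      inner_zero_right, mul_one] at h3
    rw [hν, inner_smul_left, h.reg.N_td h.sm hp e2, mul_zero, zero_add] at h3
    rw [h3, zero_smul, add_zero, PL_of_perp h3] at hw
    have h4 : ∀ c, ∑ a, w.1 a * F.JX X p a c = 0 := fun c => by
      rw [← h.reg.td_X h.sm hp h3, show F.td X p (w.1, 0) = 0 from congrArg Prod.fst hw]; rfl
    refine Prod.ext ?_ h2
    ext b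
    have h5 : ∑ a, w.1 a * dot (F.WX X p b) (F.JX X p a) = 0 := by
      have a0 := h4 0
      have a1 := h4 1
      have a2 := h4 2
      simp only [dot, Fin.sum_univ_three] at a0 a1 a2 ⊢
      linear_combination F.WX X p b 0 * a0 + F.WX X p b 1 * a1 + F.WX X p b 2 * a2
    have h6 : ∀ a, w.1 a * dot (F.WX X p b) (F.JX X p a) = F.sX X p ^ 2 *
        ((if b = a then w.1 a else 0) - F.nu b p * (F.n p a * w.1 a)) := fun a => by
      rw [WX, (h.reg.fr hp X).W_J, sX_sq]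
      split_ifs <;> simp only [nu] <;> ring
    simp only [h6, ← Finset.mul_sum, Finset.sum_sub_distrib, ← inner_eq_sum, h3, mul_zero, sub_zero,
      Finset.sum_ite_eq, Finset.mem_univ, if_true] at h5
    exact (mul_eq_zero.1 h5).resolve_left (pow_pos (h.s_pos hp) 2).ne'
  obtain ⟨G0, g1, g2, g3, g4⟩ := exists_localDiffeo hO hΘs ⟨hpU, hW0⟩ hinj
  set φ : ST → ℝ := fun y => φ0 (G0.symm y) with hφ
  have hφs : ContDiffOn ℝ ∞ φ G0.target := L.sm.comp g4 fun y hy => (g2 (G0.map_target hy)).2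
  have dφ : ∀ y ∈ G0.target, DifferentiableAt ℝ φ y := fun y hy =>
    (hφs.contDiffAt (G0.open_target.mem_nhds hy)).differentiableAt (by simp)
  have mT : ∀ q ∈ G0.source, Θ q ∈ G0.target := fun q hq => g3 q ▸ G0.map_source hq
  have key : ∀ q ∈ G0.source, ∀ w, fderiv ℝ φ (Θ q) (fderiv ℝ Θ q w) = fderiv ℝ φ0 q w :=
    fun q hq w => by
      have d1 := (dφ _ (mT q hq)).hasFDerivAt.comp q (dΘ q (g2 hq)).differentiableAt.hasFDerivAt
      have d2 := (L.diffAt (g2 hq).2).hasFDerivAt.congr_of_eventuallyEq (f₁ := φ ∘ Θ)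
        (eventually_of_mem (G0.open_source.mem_nhds hq) fun r hr => by
          simp only [comp_apply, hφ, ← g3, G0.left_inv hr])
      exact congrArg (fun T : ST →L[ℝ] ℝ => T w) (d1.unique d2)
  have par : ∀ q ∈ G0.source, q ∈ F.M → F.sX X q ^ 2 • gradX φ (hat X q).1 (hat X q).2 =
      ⟪F.NX X q, gradX φ (hat X q).1 (hat X q).2⟫_ℝ • F.NX X q := fun q hq hM =>
    h.reg.perp_eq h.sm hM fun a => by
      have := key q hq (F.PL q (ee a), 0)
      rw [dT' q (g2 hq) hM _ (h.reg.tg_PL hM _), (L.tg_iff (g2 hq).2 hM).1 (h.reg.tg_PL hM _),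
        hΘM q (g2 hq) hM] at this
      rw [inner_gradX (hΘM q (g2 hq) hM ▸ dφ _ (mT q hq)), this]
  have hpT : hat X p ∈ G0.target := hΘM p (g2 g1) hp ▸ mT p g1
  have pos0 : 0 < ⟪F.NX X p, gradX φ (hat X p).1 (hat X p).2⟫_ℝ := by
    have e1 := key p g1 (F.n p, 0)
    have e0 : (fderiv ℝ Θ p (F.n p, 0)).2 = 0 := by rw [(dΘ p ⟨hpU, hW0⟩).fderiv]; rfl
    rw [hΘM p (g2 g1) hp, fderiv_split (dφ _ hpT), e0, mul_zero, add_zero, L.fderiv_eq hW0 hp,
      h.reg.inner_n hp] at e1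
    have e2 := congrArg (fun v => ⟪v, (fderiv ℝ Θ p (F.n p, 0)).1⟫_ℝ) (par p g1 hp)
    rw [hν, inner_smul_left, conj_trivial, inv_mul_eq_one₀ (h.s_pos hp).ne'] at dN
    simp only [inner_smul_left, conj_trivial, e1, ← dN, ← hγ] at e2
    have := h.s_pos hp
    refine pos_of_mul_pos_left (b := F.sX X p) ?_ this.le
    rw [← e2]
    simp only [mul_zero, sub_zero, mul_one]
    positivity
  have cont : ContinuousWithinAt (fun q => ⟪F.NX X q, gradX φ (hat X q).1 (hat X q).2⟫_ℝ) F.M p :=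
    ((h.reg.sm_NX h.sm).continuousOn p hp).inner
      (((contDiffOn_gradX G0.open_target hφs).continuousOn.continuousAt
        (G0.open_target.mem_nhds hpT)).comp_continuousWithinAt (h.sm.hat.continuousOn p hp))
  obtain ⟨U2, hU2, hU2'⟩ := (eventually_nhdsWithin_iff.1 (cont.eventually (lt_mem_nhds pos0))).exists_mem
  obtain ⟨U', hU', hemb⟩ := h.emb p hp _ (inter_mem hU2 (G0.open_source.mem_nhds g1))
  have hne : ∀ y ∈ G0.target, gradX φ y.1 y.2 ≠ 0 := fun y hy h0 => by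
    have hq := G0.map_target hy
    have e : Θ (G0.symm y) = y := by rw [← g3, G0.right_inv hy]
    have e1 := key _ hq (gradX φ0 (G0.symm y).1 (G0.symm y).2, 0)
    have e0 : (fderiv ℝ Θ (G0.symm y) (gradX φ0 (G0.symm y).1 (G0.symm y).2, 0)).2 = 0 := by
      rw [(dΘ _ (g2 hq)).fderiv]; rfl
    rw [e, fderiv_split (dφ _ hy), h0, e0, ← inner_gradX (L.diffAt (g2 hq).2)] at e1
    simp only [inner_zero_left, mul_zero, add_zero] at e1
    exact L.ne _ (g2 hq).2 (inner_self_eq_zero.1 e1.symm)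
  have hn : ∀ q ∈ F.M, hat X q ∈ interior U' ∩ G0.target → G.n (hat X q) =
      ‖gradX φ (hat X q).1 (hat X q).2‖⁻¹ • gradX φ (hat X q).1 (hat X q).2 := fun q hM hq => by
    have h1 := hemb q hM (interior_subset hq.1)
    have h2 := par q h1.2 hM
    have h3 := hU2' q h1.1 hM
    have h4 := h.s_pos hM
    have h5 := norm_pos_iff.2 (hne _ hq.2)
    have h6 := congrArg norm h2
    rw [norm_smul, norm_smul, Real.norm_of_nonneg h3.le, Real.norm_of_nonneg (sq_nonneg _),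
      ← sX] at h6
    have h7 : gradX φ (hat X q).1 (hat X q).2 =
        (‖gradX φ (hat X q).1 (hat X q).2‖ * (F.sX X q)⁻¹) • F.NX X q := by
      refine smul_right_injective E (pow_pos h4 2).ne' ?_
      simp only [h2, smul_smul]
      congr 1
      field_simp
      nlinarith
    rw [h.n_eq q hM]
    conv_rhs => rw [h7, ← h7]; rhs; rw [h7]
    rw [smul_smul, ← mul_assoc, inv_mul_cancel₀ h5.ne', one_mul]
  have hinv : ∀ q ∈ F.M, hat X q ∈ interior U' ∩ G0.target → G0.symm (hat X q) = q :=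
    fun q hM hq => by
      have h1 := hemb q hM (interior_subset hq.1)
      rw [← hΘM q (g2 h1.2) hM, ← g3, G0.left_inv h1.2]
  refine ⟨interior U' ∩ G0.target, φ, G0.symm, ⟨mem_interior_iff_mem_nhds.2 hU', hpT⟩,
    ⟨isOpen_interior.inter G0.open_target, hφs.mono inter_subset_right, fun y hy => hne y hy.2,
      fun y hy => ⟨fun hM => ?_, fun h0 => ?_⟩, fun y hy hM => ?_, fun y hy hM => ?_⟩,
    g4.mono inter_subset_right, hinv⟩
  · obtain ⟨q, hq, rfl⟩ := h.exists_pre hM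
    rw [hφ]
    simp only [hinv q hq hy]
    exact (L.mem q (g2 (hemb q hq (interior_subset hy.1)).2).2).1 hq
  · have hq := G0.map_target hy.2
    have hM := (L.mem _ (g2 hq).2).2 h0
    have := h.mem hM
    rwa [← hΘM _ (g2 hq) hM, ← g3, G0.right_inv hy.2] at this
  · obtain ⟨q, hq, rfl⟩ := h.exists_pre hM
    exact hn q hq hy
  · obtain ⟨q, hq, rfl⟩ := h.exists_pre hM
    have h1 := (hemb q hq (interior_subset hy.1)).2
    have e1 := key q h1 (F.V q • F.n q, 1)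
    rw [dT' q (g2 h1) hq _ (h.reg.tg_vel hq), (L.tg_iff (g2 h1).2 hq).1 (h.reg.tg_vel hq),
      hΘM q (g2 h1) hq, fderiv_split (dφ _ hy.2)] at e1
    rw [h.V_eq q hq, hn q hq hy, inner_smul_left, conj_trivial, div_eq_inv_mul]
    congr 1
    linarith

/-- the image is a smooth moving surface -/
theorem reg' : G.Reg := fun y hy => by
  obtain ⟨p, hp, rfl⟩ := h.exists_pre hy
  obtain ⟨W, φ, -, h1, h2, -⟩ := h.exists_loc hp
  exact ⟨W, φ, h1, h2⟩

/-- the inverse is smooth on the image -/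
theorem sm_inv : G.Sm (F.inv X) := fun y hy => by
  obtain ⟨p, hp, rfl⟩ := h.exists_pre hy
  obtain ⟨W, φ, Ψ, h1, h2, h3, h4⟩ := h.exists_loc hp
  refine (h3.contDiffAt (h2.isOpen.mem_nhds h1)).contDiffWithinAt.congr_of_eventuallyEq_of_mem ?_ hy
  filter_upwards [nhdsWithin_le_nhds (h2.isOpen.mem_nhds h1), self_mem_nhdsWithin] with y a b
  obtain ⟨q, hq, rfl⟩ := h.exists_pre b
  rw [h.toEmb.inv_hat hq, h4 q hq a]

theorem inv_mem {y : ST} (hy : y ∈ G.M) : F.inv X y ∈ F.M := by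
  obtain ⟨p, hp, rfl⟩ := h.exists_pre hy
  rwa [h.toEmb.inv_hat hp]

theorem hat_inv {y : ST} (hy : y ∈ G.M) : hat X (F.inv X y) = y := by
  obtain ⟨p, hp, rfl⟩ := h.exists_pre hy
  rw [h.toEmb.inv_hat hp]

section Fn

variable {B : Type} [NormedAddCommGroup B] [NormedSpace ℝ B] {f : ST → B}

/-- pull back -/
theorem sm_comp (hf : G.Sm f) : F.Sm fun q => f (hat X q) := ContDiffOn.comp hf h.sm.hat h.maps

/-- push forward -/
theorem sm_push (hf : F.Sm f) : G.Sm fun y => f (F.inv X y) :=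
  ContDiffOn.comp hf h.sm_inv fun _ hy => h.inv_mem hy

/-- chain rule -/
theorem td_comp (hp : p ∈ F.M) (hf : DifferentiableWithinAt ℝ f G.M (hat X p)) (hw : F.Tg p w) :
    F.td (fun q => f (hat X q)) p w = G.td f (hat X p) (F.td X p w, w.2) :=
  h.reg.td_eq hp (hf.hasFDerivWithinAt.comp p ((h.sm.hasF hp).prodMk hasFDerivWithinAt_snd)
    h.maps) hw

end Fn

variable {f : ST → ℝ}

theorem nu_eq (hp : p ∈ F.M) (c : Fin 3) : G.nu c (hat X p) = (F.sX X p)⁻¹ * F.NX X p c := by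
  rw [nu, h.n_eq p hp]; rfl

theorem chain (hp : p ∈ F.M) (hf : DifferentiableWithinAt ℝ f G.M (hat X p)) (a : Fin 3) :
    F.D a (fun q => f (hat X q)) p = ∑ b, F.JX X p a b * G.D b f (hat X p) := by
  have e := h.n_td hp (h.reg.tg_PL hp (ee a))
  rw [Tg, mul_zero] at e
  rw [D_apply, h.td_comp hp hf (h.reg.tg_PL hp _), td_perp f e]
  simp only [h.reg.JX_eq h.sm hp]

/-- tangential derivatives on the image -/
theorem D_eq (hp : p ∈ F.M) (hf : DifferentiableWithinAt ℝ f G.M (hat X p)) (b : Fin 3) :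
    G.D b f (hat X p) = (F.sX X p)⁻¹ * (F.sX X p)⁻¹ *
      ∑ a, F.WX X p a b * F.D a (fun q => f (hat X q)) p := by
  have e := (h.reg.fr hp X).dec (fun c => G.D c f (hat X p)) b
  have e2 := h.reg'.n_D (h.mem hp) f
  have hs := (h.toEmb.s_pos hp).ne'
  simp only [h.nu_eq hp, mul_assoc, ← Finset.mul_sum, mul_eq_zero, inv_eq_zero, hs, false_or,
    NX_apply] at e2
  rw [← sX_sq, dot.eq_1 (Nv _ _), e2, mul_zero, add_zero] at e
  simp only [h.chain hp hf]
  rw [show ∑ a, F.WX X p a b * ∑ b, F.JX X p a b * G.D b f (hat X p) = _ from e.symm]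
  field_simp

/-- normal time derivative on the image -/
theorem Dt_eq (hp : p ∈ F.M) (hf : DifferentiableWithinAt ℝ f G.M (hat X p)) :
    G.Dt f (hat X p) = F.Dt (fun q => f (hat X q)) p
      - ∑ b, F.Dt (cp X b) p * G.D b f (hat X p) := by
  rw [Dt.eq_1 F, h.td_comp hp hf (h.reg.tg_vel hp),
    Reg.td_split f (h.n_td hp (h.reg.tg_vel hp))]
  simp only [← h.reg.td_coord hp (h.sm.diffW hp) (h.reg.tg_vel hp)]
  change _ = ∑ b, F.Dt (cp X b) p * _ + 1 * _ - _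
  ring

theorem V_eq' (hp : p ∈ F.M) :
    G.V (hat X p) = (F.sX X p)⁻¹ * ∑ c, F.NX X p c * F.Dt (cp X c) p := by
  rw [h.V_eq p hp, h.n_eq p hp, inner_smul_left, conj_trivial, inner_eq_sum]
  simp only [← h.reg.td_coord hp (h.sm.diffW hp) (h.reg.tg_vel hp)]
  rfl

/-- pull back of smooth functions -/
def pull : G.SmR →+* F.SmR where
  toFun u := mk' (fun q => G.ext0 u.1 (hat X q)) (h.sm_comp u.2)
  map_one' := SmR_ext fun _ hp => ext0_apply _ (h.mem hp)
  map_zero' := SmR_ext fun _ hp => ext0_apply _ (h.mem hp)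
  map_mul' u v := SmR_ext fun p hp => by
    simp only [map_mul, ev_mk, ext0_apply _ (h.mem hp)]; rfl
  map_add' u v := SmR_ext fun p hp => by
    simp only [map_add, ev_mk, ext0_apply _ (h.mem hp)]; rfl

theorem ev_pull (hp : p ∈ F.M) (u : G.SmR) : ev hp (h.pull u) = ev (h.mem hp) u :=
  ext0_apply _ (h.mem hp)

theorem pull_mk (hf : G.Sm f) : h.pull (mk' f hf) = mk' (fun q => f (hat X q)) (h.sm_comp hf) :=
  SmR_ext fun _ hp => h.ev_pull hp _

theorem ev_DX (hp : p ∈ F.M) (hf : G.Sm f) (b : Fin 3) :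
    ev hp (h.reg.mov.DX (Reg.mX h.sm) (h.reg.mS h.sm h.ne) b (h.pull (mk' f hf))) =
      G.D b f (hat X p) := by
  rw [h.D_eq hp (hf.diffW (h.mem hp)), h.pull_mk, Mov.DX]
  simp only [map_mul, map_sum, h.reg.ev_WX, h.reg.mov_D, Reg.mS, ev_mk]

/-- the delta-calculus of the image is the abstract one -/
theorem hom : h.reg'.mov.Hom (h.reg.mov.par (Reg.mX h.sm) (h.reg.mS h.sm h.ne)) h.pull where
  x a := SmR_ext fun _ hp => h.ev_pull hp _
  D a u := by
    obtain ⟨f, hf, rfl⟩ := exists_mk u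
    exact SmR_ext fun p hp => by
      rw [h.ev_pull, h.reg'.mov_D, ev_mk]; exact (h.ev_DX hp hf a).symm
  T u := by
    obtain ⟨f, hf, rfl⟩ := exists_mk u
    refine SmR_ext fun p hp => ?_
    rw [h.ev_pull, h.reg'.mov_T, ev_mk, h.Dt_eq hp (hf.diffW (h.mem hp))]
    simp only [Mov.par, map_sub, map_sum, map_mul, h.ev_DX hp hf]
    simp only [h.pull_mk, h.reg.mov_T, Reg.mX, ev_mk]
  n a := SmR_ext fun p hp => by
    rw [h.ev_pull, h.reg'.mov_n, ev_mk, h.nu_eq hp]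
    simp only [Mov.par, map_mul, h.reg.ev_NX, Reg.mS, ev_mk]
  V := SmR_ext fun p hp => by
    rw [h.ev_pull, h.reg'.mov_V, ev_mk, h.V_eq' hp]
    simp only [Mov.par, map_mul, dot, map_sum, h.reg.ev_NX, Reg.mS, Reg.mX, h.reg.mov_T, ev_mk]

/-- second fundamental form of the image -/
theorem A_eq (hp : p ∈ F.M) (b c : Fin 3) :
    G.A b c (hat X p) = (F.sX X p)⁻¹ ^ 5 * F.AX X p b c := by
  have e := congrArg (ev hp) (h.hom.B b c)
  rw [h.ev_pull, h.reg'.mov_B, ev_mk, h.reg.isHyp.par_B (h.reg.mS_sq h.sm h.ne)] at e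
  simpa only [map_mul, map_pow, h.reg.ev_AX, Reg.mS, ev_mk] using e

/-- mean curvature of the image -/
theorem H_eq (hp : p ∈ F.M) : G.H (hat X p) = (F.sX X p)⁻¹ ^ 3 * F.HX X p := by
  have e := congrArg (ev hp) h.hom.h
  rw [h.ev_pull, h.reg'.mov_h, ev_mk, h.reg.isHyp.par_h (h.reg.mS_sq h.sm h.ne)] at e
  simpa only [map_mul, map_pow, h.reg.ev_HX, Reg.mS, ev_mk] using e

theorem xn_eq (hp : p ∈ F.M) (y : E) :
    G.xn y (hat X p) = (F.sX X p)⁻¹ * ⟪X p - y, F.NX X p⟫_ℝ := by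
  rw [xn, h.n_eq p hp, inner_smul_right]; rfl

/-- the shrinker quantity of the image -/
theorem shr_eq (hp : p ∈ F.M) : G.shr (hat X p) = (F.sX X p)⁻¹ ^ 3 * F.ELX X p / 2 := by
  have hs := (h.toEmb.s_pos hp).ne'
  rw [shr, h.H_eq hp, h.xn_eq hp, sub_zero, ELX, EL, ← sX_sq, ← HX, inner_eq_dot]
  simp only [NX_apply]
  field_simp

theorem sl_eq (t : ℝ) : G.sl t = (fun x => X (x, t)) '' F.sl t := by
  ext y
  constructor
  · intro hy
    obtain ⟨⟨x, s⟩, hp, e⟩ := h.exists_pre hy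
    obtain rfl : s = t := congrArg Prod.snd e
    exact ⟨x, hp, congrArg Prod.fst e⟩
  · rintro ⟨x, hx, rfl⟩
    exact h.mem (p := (x, t)) hx

end Par

theorem Emb.reg_img (h : F.Emb X) : (F.img X).Reg := h.par.reg'

/-- embedding criterion: `hat X` has a continuous inverse on its image -/
theorem emb_of_dist {C : ℝ} (hd : ∀ p ∈ F.M, ∀ q ∈ F.M, dist q p ≤ C * dist (hat X q) (hat X p)) :
    ∀ p ∈ F.M, ∀ U ∈ 𝓝 p, ∃ U' ∈ 𝓝 (hat X p), ∀ q ∈ F.M, hat X q ∈ U' → q ∈ U := by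
  intro p hp U hU
  obtain ⟨ε, h0, h1⟩ := Metric.mem_nhds_iff.1 hU
  refine ⟨Metric.ball _ (ε / (|C| + 1)), Metric.ball_mem_nhds _ (by positivity),
    fun q hq h2 => h1 ?_⟩
  rw [Metric.mem_ball, lt_div_iff₀ (by positivity)] at h2
  have := hd p hp q hq
  have h3 := le_abs_self C
  have h4 := dist_nonneg (x := hat X q) (y := hat X p)
  rw [Metric.mem_ball]
  nlinarith

/-- embedding criterion: injective and locally proper -/
theorem emb_of_proper (hc : ContinuousOn X F.M) (hi : InjOn (hat X) F.M)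
    (hK : ∀ p ∈ F.M, ∃ U' ∈ 𝓝 (hat X p), ∃ K, IsCompact K ∧ K ⊆ F.M ∧
      ∀ q ∈ F.M, hat X q ∈ U' → q ∈ K) :
    ∀ p ∈ F.M, ∀ U ∈ 𝓝 p, ∃ U' ∈ 𝓝 (hat X p), ∀ q ∈ F.M, hat X q ∈ U' → q ∈ U := by
  intro p hp U hU
  obtain ⟨U', h1, K, h2, h3, h4⟩ := hK p hp
  have h5 : IsCompact (hat X '' (K \ interior U)) :=
    (h2.diff isOpen_interior).image_of_continuousOn
      ((hc.prodMk continuousOn_snd).mono fun q hq => h3 hq.1)
  have h6 : hat X p ∉ hat X '' (K \ interior U) := by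
    rintro ⟨q, hq, e⟩
    rw [hi (h3 hq.1) hp e] at hq
    exact hq.2 (mem_interior_iff_mem_nhds.2 hU)
  refine ⟨_, inter_mem h1 (h5.isClosed.isOpen_compl.mem_nhds h6), fun q hq h7 => ?_⟩
  by_contra h8
  exact h7.2 ⟨q, ⟨h4 q hq h7.1, fun h9 => h8 (interior_subset h9)⟩, rfl⟩

end Mv

end Crest.Agent.N250

end
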