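import Crest.Agent.N250.Gc.Alg

/-!
# Row 250, parametrised surfaces (helper48), part 5: expansions, linearisation, derivatives
-/

set_option autoImplicit false

noncomputable section

namespace Crest.Agent.N250.Gc

variable {R : Type} [CommRing R]

/-- first order part of `Nv` -/
def N1 (n : Fin 3 → R) (J J' : Fin 3 → Fin 3 → R) (c : Fin 3) : R :=
  ∑ a, n a * (cr (J (a + 1)) (J' (a + 2)) c + cr (J' (a + 1)) (J (a + 2)) c)

/-- first order part of `gm` -/
def gm1 (J J' : Fin 3 → Fin 3 → R) (a b : Fin 3) : R := dot (J a) (J' b) + dot (J' a) (J b)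

/-- first order part of `adj` -/
def adj1 (J J' : Fin 3 → Fin 3 → R) (a b : Fin 3) : R :=
  (if a = b then ∑ e, gm1 J J' e e else 0) - gm1 J J' a b

/-- first order part of `G2` -/
def dG2 (n : Fin 3 → R) (J J' : Fin 3 → Fin 3 → R) : R := 2 * dot (Nv n J) (N1 n J J')

/-- first order part of `HP` -/
def dHP (n : Fin 3 → R) (J : Fin 3 → Fin 3 → R) (K : Fin 3 → Fin 3 → Fin 3 → R)
    (J' : Fin 3 → Fin 3 → R) (K' : Fin 3 → Fin 3 → Fin 3 → R) : R :=
  -∑ a, ∑ b, (adj1 J J' a b * dot (K a b) (Nv n J)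
    + adj J a b * (dot (K' a b) (Nv n J) + dot (K a b) (N1 n J J')))

/-- first order part of `EL` -/
def dEL (n x : Fin 3 → R) (J : Fin 3 → Fin 3 → R) (K : Fin 3 → Fin 3 → Fin 3 → R) (y : Fin 3 → R)
    (J' : Fin 3 → Fin 3 → R) (K' : Fin 3 → Fin 3 → Fin 3 → R) : R :=
  2 * dHP n J K J' K' - ((dot y (Nv n J) + dot x (N1 n J J')) * G2 n J + dot x (Nv n J) * dG2 n J J')

/-- remainder of `G2` -/
def rG2 (n : Fin 3 → R) (J J' : Fin 3 → Fin 3 → R) : R :=
  dot (N1 n J J') (N1 n J J') + 2 * dot (Nv n J + N1 n J J') (Nv n J') + dot (Nv n J') (Nv n J')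

/-- remainder of `HP` -/
def rHP (n : Fin 3 → R) (J : Fin 3 → Fin 3 → R) (K : Fin 3 → Fin 3 → Fin 3 → R)
    (J' : Fin 3 → Fin 3 → R) (K' : Fin 3 → Fin 3 → Fin 3 → R) : R :=
  -∑ a, ∑ b, (adj J a b * (dot (K a b) (Nv n J') + dot (K' a b) (N1 n J J' + Nv n J'))
    + adj1 J J' a b * (dot (K a b) (N1 n J J' + Nv n J') + dot (K' a b) (Nv n (J + J')))
    + adj J' a b * dot (K a b + K' a b) (Nv n (J + J')))

section Exp

variable (n x y u v w : Fin 3 → R) (J J' : Fin 3 → Fin 3 → R) (K K' : Fin 3 → Fin 3 → Fin 3 → R)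

theorem dot_add : dot u (v + w) = dot u v + dot u w := by
  simp only [dot, Pi.add_apply, mul_add, Finset.sum_add_distrib]

theorem add_dot : dot (u + v) w = dot u w + dot v w := by
  simp only [dot, Pi.add_apply, add_mul, Finset.sum_add_distrib]

theorem Nv_add : Nv n (J + J') = Nv n J + N1 n J J' + Nv n J' := by
  funext c
  simp only [Nv, N1, cr, Pi.add_apply, Fin.sum_univ_three]; ring

theorem adj_add (a b : Fin 3) : adj (J + J') a b = adj J a b + adj1 J J' a b + adj J' a b := by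
  simp only [adj, adj1, gm, gm1, Pi.add_apply, dot_add, add_dot, Finset.sum_add_distrib]
  split_ifs <;> ring

theorem G2_add : G2 n (J + J') = G2 n J + dG2 n J J' + rG2 n J J' := by
  simp only [G2, dG2, rG2, Nv_add, dot_add, add_dot, dot_comm (N1 n J J') (Nv n J),
    dot_comm (Nv n J') (Nv n J), dot_comm (Nv n J') (N1 n J J')]
  ring

theorem HP_add : HP n (J + J') (K + K') = HP n J K + dHP n J K J' K' + rHP n J K J' K' := by
  simp only [HP, dHP, rHP, ← neg_add, ← Finset.sum_add_distrib]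
  refine congrArg _ (Finset.sum_congr rfl fun a _ => Finset.sum_congr rfl fun b _ => ?_)
  simp only [adj_add, Nv_add, Pi.add_apply, dot_add, add_dot]
  ring

theorem HP_mul (r : R) : HP n J (fun a b c => r * K a b c) = r * HP n J K := by
  simp only [HP, dot, Fin.sum_univ_three]; ring

theorem dHP_mul (r : R) :
    dHP n J (fun a b c => r * K a b c) J' (fun a b c => r * K' a b c) = r * dHP n J K J' K' := by
  simp only [dHP, dot, Fin.sum_univ_three]; ring

theorem AP_mul (r : R) (b c : Fin 3) : AP n J (fun a b c => r * K a b c) b c = r * AP n J K b c := by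
  simp only [AP, dot, Fin.sum_univ_three]; ring

variable {R' : Type} [CommRing R'] (φ : R →+* R')

theorem map_N1 (c : Fin 3) : φ (N1 n J J' c) =
    N1 (fun a => φ (n a)) (fun a c => φ (J a c)) (fun a c => φ (J' a c)) c := by
  simp only [N1, map_sum, map_mul, map_add, map_cr]

theorem map_gm1 (a b : Fin 3) :
    φ (gm1 J J' a b) = gm1 (fun a c => φ (J a c)) (fun a c => φ (J' a c)) a b := by
  simp only [gm1, map_add, map_dot]

theorem map_adj1 (a b : Fin 3) :
    φ (adj1 J J' a b) = adj1 (fun a c => φ (J a c)) (fun a c => φ (J' a c)) a b := by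
  simp only [adj1, map_sub, apply_ite φ, map_sum, map_gm1, map_zero]

theorem map_dG2 :
    φ (dG2 n J J') = dG2 (fun a => φ (n a)) (fun a c => φ (J a c)) fun a c => φ (J' a c) := by
  simp only [dG2, map_mul, map_dot, map_Nv, map_N1, map_ofNat]

theorem map_dHP : φ (dHP n J K J' K') = dHP (fun a => φ (n a)) (fun a c => φ (J a c))
    (fun a b c => φ (K a b c)) (fun a c => φ (J' a c)) fun a b c => φ (K' a b c) := by
  simp only [dHP, map_neg, map_sum, map_add, map_mul, map_dot, map_Nv, map_N1, map_adj, map_adj1]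

theorem map_dEL : φ (dEL n x J K y J' K') = dEL (fun a => φ (n a)) (fun a => φ (x a))
    (fun a c => φ (J a c)) (fun a b c => φ (K a b c)) (fun a => φ (y a)) (fun a c => φ (J' a c))
    fun a b c => φ (K' a b c) := by
  simp only [dEL, map_sub, map_add, map_mul, map_dot, map_Nv, map_N1, map_dHP, map_dG2, map_G2,
    map_ofNat]

end Exp

/-! ### the base point `X = x` -/

/-- the projection `1 - n ⊗ n` -/
def P0 (n : Fin 3 → R) (a b : Fin 3) : R := (if a = b then 1 else 0) - n a * n b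

/-- second derivatives of the position -/
def K0 (n : Fin 3 → R) (B : Fin 3 → Fin 3 → R) (a b c : Fin 3) : R := -(B a b * n c) - n b * B a c

theorem N1_P0 (n : Fin 3 → R) (J' : Fin 3 → Fin 3 → R) (c : Fin 3) :
    N1 n (P0 n) J' c = (∑ a, J' a a) * n c - dot (J' c) n := by
  induction c using fin3 <;>
    simp [N1, P0, cr, dot, Fin.sum_univ_three, f11, f12, f21, f22] <;> ring

theorem Nv_P0 (n : Fin 3 → R) : Nv n (P0 n) = n := by
  funext c
  induction c using fin3 <;>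
    simp [Nv, P0, cr, Fin.sum_univ_three, f11, f12, f21, f22] <;> ring

/-- unit normal and symmetric tangential shape operator -/
structure Sh (n : Fin 3 → R) (B : Fin 3 → Fin 3 → R) : Prop where
  nn : ∑ a, n a * n a = 1
  symm : ∀ a b, B a b = B b a
  nB : ∀ b, ∑ a, n a * B a b = 0

section Base

variable {n : Fin 3 → R} (h : ∑ a, n a * n a = 1)
include h

theorem dot_P0 (a : Fin 3) (v : Fin 3 → R) : dot (P0 n a) v = v a - n a * dot n v := by
  have := h
  simp only [dot, P0, sub_mul, Finset.sum_sub_distrib, ite_mul, one_mul, zero_mul,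
    Finset.sum_ite_eq, Finset.mem_univ, if_true, Finset.mul_sum, mul_assoc]

theorem fr_P0 : Fr n (P0 n) := ⟨h, fun c => by
  simp only [P0, mul_sub, Finset.sum_sub_distrib, mul_ite, mul_one, mul_zero, Finset.sum_ite_eq',
    Finset.mem_univ, if_true, ← mul_assoc, ← Finset.sum_mul, h, one_mul, sub_self]⟩

theorem G2_P0 : G2 n (P0 n) = 1 := by rw [G2, Nv_P0]; exact h

theorem gm_P0 (a b : Fin 3) : gm (P0 n) a b = P0 n a b := by
  have := (fr_P0 h).N_J b
  rw [Nv_P0] at this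
  rw [gm, dot_P0 h, this, mul_zero, sub_zero, P0, P0, mul_comm]
  simp only [eq_comm]

theorem adj_P0 (a b : Fin 3) : adj (P0 n) a b = (if a = b then 1 else 0) + n a * n b := by
  have e : ∑ e, P0 n e e = 2 := by
    simp only [P0, if_true, Finset.sum_sub_distrib, h, Fin.sum_univ_three]; ring
  simp only [adj, gm_P0 h, e]
  rw [P0]
  split_ifs <;> ring

theorem Wv_P0 (a c : Fin 3) : Wv (P0 n) a c = P0 n a c := by
  simp only [Wv, adj_P0 h, add_mul, Finset.sum_add_distrib, ite_mul, one_mul, zero_mul,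
    Finset.sum_ite_eq, Finset.mem_univ, if_true, mul_assoc, ← Finset.mul_sum, (fr_P0 h).nJ,
    mul_zero, add_zero]

variable {J' : Fin 3 → Fin 3 → R} (hJ : ∀ c, ∑ a, n a * J' a c = 0)
include hJ

theorem n_N1 : dot n (N1 n (P0 n) J') = ∑ a, J' a a := by
  have h0 := hJ 0
  have h1 := hJ 1
  have h2 := hJ 2
  simp only [N1_P0, dot, Fin.sum_univ_three] at h h0 h1 h2 ⊢
  linear_combination (J' 0 0 + J' 1 1 + J' 2 2) * h - n 0 * h0 - n 1 * h1 - n 2 * h2

theorem dG2_P0 : dG2 n (P0 n) J' = 2 * ∑ a, J' a a := by rw [dG2, Nv_P0, n_N1 h hJ]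

end Base

namespace Sh

variable {n : Fin 3 → R} {B : Fin 3 → Fin 3 → R} (h : Sh n B)
include h

theorem Bn (a : Fin 3) : dot (B a) n = 0 := by
  rw [← h.nB a]; exact Finset.sum_congr rfl fun b _ => by rw [h.symm, mul_comm]

theorem K0_dot (a b : Fin 3) (v : Fin 3 → R) :
    dot (K0 n B a b) v = -(B a b * dot n v) - n b * dot (B a) v := by
  have := h
  simp only [dot, K0, Fin.sum_univ_three]; ring

theorem K0_n (a b : Fin 3) : dot (K0 n B a b) n = -B a b := by
  rw [h.K0_dot, h.Bn, show dot n n = 1 from h.nn]; ring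

theorem tr_K0 (v : Fin 3 → R) :
    ∑ a, ∑ b, adj (P0 n) a b * dot (K0 n B a b) v = -((∑ a, B a a) * dot n v) := by
  have h0 := h.nB 0
  have h1 := h.nB 1
  have h2 := h.nB 2
  have hn := h.nn
  simp only [adj_P0 h.nn, h.K0_dot]
  simp [dot.eq_1 (B _), Fin.sum_univ_three] at h0 h1 h2 hn ⊢
  linear_combination (-(dot n v * n 0) - v 0 * (1 + (n 0 * n 0 + n 1 * n 1 + n 2 * n 2))) * h0
    + (-(dot n v * n 1) - v 1 * (1 + (n 0 * n 0 + n 1 * n 1 + n 2 * n 2))) * h1
    + (-(dot n v * n 2) - v 2 * (1 + (n 0 * n 0 + n 1 * n 1 + n 2 * n 2))) * h2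

theorem HP_P0 : HP n (P0 n) (K0 n B) = ∑ a, B a a := by
  rw [HP, h.tr_K0, Nv_P0, show dot n n = 1 from h.nn]; ring

/-- the linearisation of `HP` at the identity, for abstract jets -/
theorem dHP_P0 {J' : Fin 3 → Fin 3 → R} {K' : Fin 3 → Fin 3 → Fin 3 → R}
    (hJ : ∀ c, ∑ a, n a * J' a c = 0) (hK : ∀ b c, ∑ a, n a * K' a b c = 0) :
    dHP n (P0 n) (K0 n B) J' K' =
      3 * (∑ a, B a a) * (∑ a, J' a a) - 2 * ∑ a, ∑ b, B a b * J' a b - ∑ a, dot (K' a a) n := by
  have e1 : ∑ a, ∑ b, adj (P0 n) a b * dot (K' a b) n = ∑ a, dot (K' a a) n := by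
    have : ∑ a, ∑ b, adj (P0 n) a b * dot (K' a b) n =
        ∑ a, dot (K' a a) n + ∑ b, ∑ c, n b * n c * ∑ a, n a * K' a b c := by
      simp only [adj_P0 h.nn]
      simp [dot, Fin.sum_univ_three]
      ring
    simp only [this, hK, mul_zero, Finset.sum_const_zero, add_zero]
  have e2 : ∑ a, ∑ b, adj1 (P0 n) J' a b * B a b =
      2 * (∑ a, B a a) * (∑ a, J' a a) - 2 * ∑ a, ∑ b, B a b * J' a b := by
    have h0 := h.nB 0
    have h1 := h.nB 1
    have h2 := h.nB 2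
    have j0 := hJ 0
    have j1 := hJ 1
    have j2 := hJ 2
    simp only [adj1, gm1, dot_comm (J' _), dot_P0 h.nn]
    simp [dot, Fin.sum_univ_three, h.symm 1 0, h.symm 2 0, h.symm 2 1] at h0 h1 h2 j0 j1 j2 ⊢
    linear_combination (-2 * (B 0 0 + B 1 1 + B 2 2)) * (n 0 * j0 + n 1 * j1 + n 2 * j2)
      + 2 * (n 0 * J' 0 0 + n 1 * J' 0 1 + n 2 * J' 0 2) * h0
      + 2 * (n 0 * J' 1 0 + n 1 * J' 1 1 + n 2 * J' 1 2) * h1
      + 2 * (n 0 * J' 2 0 + n 1 * J' 2 1 + n 2 * J' 2 2) * h2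
  simp only [dHP, Nv_P0, h.K0_n, mul_add, Finset.sum_add_distrib, h.tr_K0, e1, n_N1 h.nn hJ,
    mul_neg, Finset.sum_neg_distrib, e2]
  ring

end Sh

/-! ### derivatives in a normed algebra -/

section Der

variable {𝕜 : Type} [NontriviallyNormedField 𝕜] {A : Type} [NormedCommRing A] [NormedAlgebra 𝕜 A]
  {V : Type} [NormedAddCommGroup V] [NormedSpace 𝕜 V]

/-- `f` is differentiable at `z` with derivative `f'` -/
structure HD (𝕜 : Type) [NontriviallyNormedField 𝕜] [NormedAlgebra 𝕜 A] [NormedSpace 𝕜 V]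
    (f : V → A) (z : V) (f' : V → A) : Prop where
  diff : DifferentiableAt 𝕜 f z
  eq : ∀ w, fderiv 𝕜 f z w = f' w

variable {f g f' g' : V → A} {z : V}

theorem HD.of {L : V →L[𝕜] A} (h : HasFDerivAt f L z) : HD 𝕜 f z L :=
  ⟨h.differentiableAt, fun _ => by rw [h.fderiv]⟩

theorem HD.congr (h : HD 𝕜 f z f') (e : ∀ w, f' w = g' w) : HD 𝕜 f z g' :=
  ⟨h.diff, fun w => (h.eq w).trans (e w)⟩

theorem HD.hasFDerivAt (h : HD 𝕜 f z f') {L : V →L[𝕜] A} (e : ∀ w, f' w = L w) :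
    HasFDerivAt f L z := by
  have := h.diff.hasFDerivAt
  rwa [show fderiv 𝕜 f z = L from ContinuousLinearMap.ext fun w => (h.eq w).trans (e w)] at this

theorem HD.const (c : A) : HD 𝕜 (fun _ : V => c) z fun _ => 0 := .of (hasFDerivAt_const c z)

theorem HD.add (hf : HD 𝕜 f z f') (hg : HD 𝕜 g z g') :
    HD 𝕜 (fun v => f v + g v) z fun w => f' w + g' w :=
  (HD.of (hf.diff.hasFDerivAt.add hg.diff.hasFDerivAt)).congr fun w => by
    rw [← hf.eq, ← hg.eq]; rfl

theorem HD.neg (hf : HD 𝕜 f z f') : HD 𝕜 (fun v => -f v) z fun w => -f' w :=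
  (HD.of hf.diff.hasFDerivAt.neg).congr fun w => by rw [← hf.eq]; rfl

theorem HD.sub (hf : HD 𝕜 f z f') (hg : HD 𝕜 g z g') :
    HD 𝕜 (fun v => f v - g v) z fun w => f' w - g' w :=
  (HD.of (hf.diff.hasFDerivAt.sub hg.diff.hasFDerivAt)).congr fun w => by
    rw [← hf.eq, ← hg.eq]; rfl

theorem HD.mul (hf : HD 𝕜 f z f') (hg : HD 𝕜 g z g') :
    HD 𝕜 (fun v => f v * g v) z fun w => f z * g' w + f' w * g z :=
  (HD.of (hf.diff.hasFDerivAt.mul' hg.diff.hasFDerivAt)).congr fun w => by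
    rw [← hf.eq, ← hg.eq]; simp [mul_comm]

theorem HD.const_mul (c : A) (hf : HD 𝕜 f z f') : HD 𝕜 (fun v => c * f v) z fun w => c * f' w :=
  ((HD.const c).mul hf).congr fun w => by simp

theorem HD.sum {κ : Type} (s : Finset κ) {f f' : κ → V → A} (h : ∀ i, HD 𝕜 (f i) z (f' i)) :
    HD 𝕜 (fun v => ∑ i ∈ s, f i v) z fun w => ∑ i ∈ s, f' i w :=
  (HD.of (HasFDerivAt.fun_sum fun i _ => (h i).diff.hasFDerivAt)).congr fun w => by
    simp only [ContinuousLinearMap.sum_apply, (h _).eq]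

theorem HD.ite (c : Prop) [Decidable c] (hf : HD 𝕜 f z f') :
    HD 𝕜 (fun v => if c then f v else 0) z fun w => if c then f' w else 0 := by
  split_ifs
  exacts [hf, HD.const 0]

theorem HD.inverse [CompleteSpace A] (hf : HD 𝕜 f z f') (hu : IsUnit (f z)) :
    HD 𝕜 (fun v => Ring.inverse (f v)) z
      fun w => -(Ring.inverse (f z) * Ring.inverse (f z) * f' w) := by
  obtain ⟨u, hu⟩ := hu
  have := hasFDerivAt_ringInverse (𝕜 := 𝕜) u
  rw [hu] at this
  refine (HD.of (this.comp z hf.diff.hasFDerivAt)).congr fun w => ?_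
  rw [← hf.eq, ← hu, Ring.inverse_unit]
  simp
  ring

variable {u v u' v' x x' : V → Fin 3 → A} {J J' : V → Fin 3 → Fin 3 → A}
  {K K' : V → Fin 3 → Fin 3 → Fin 3 → A}

theorem HD.dot (hu : ∀ c, HD 𝕜 (u · c) z (u' · c)) (hv : ∀ c, HD 𝕜 (v · c) z (v' · c)) :
    HD 𝕜 (fun y => dot (u y) (v y)) z fun w => dot (u z) (v' w) + dot (u' w) (v z) :=
  (HD.sum _ fun c => (hu c).mul (hv c)).congr fun _ => Finset.sum_add_distrib

theorem HD.cr (hu : ∀ c, HD 𝕜 (u · c) z (u' · c)) (hv : ∀ c, HD 𝕜 (v · c) z (v' · c)) (c : Fin 3) :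
    HD 𝕜 (fun y => cr (u y) (v y) c) z fun w => cr (u z) (v' w) c + cr (u' w) (v z) c :=
  (((hu _).mul (hv _)).sub ((hu _).mul (hv _))).congr fun w => by simp only [Gc.cr]; ring

variable (n : Fin 3 → A) (hJ : ∀ a c, HD 𝕜 (J · a c) z (J' · a c))
include hJ

theorem HD.Nv (c : Fin 3) : HD 𝕜 (fun y => Nv n (J y) c) z fun w => N1 n (J z) (J' w) c :=
  HD.sum _ fun a => (HD.cr (u := fun y => J y (a + 1)) (v := fun y => J y (a + 2))
    (hJ _) (hJ _) c).const_mul _

theorem HD.gm (a b : Fin 3) : HD 𝕜 (fun y => gm (J y) a b) z fun w => gm1 (J z) (J' w) a b :=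
  HD.dot (u := fun y => J y a) (v := fun y => J y b) (hJ a) (hJ b)

theorem HD.adj (a b : Fin 3) : HD 𝕜 (fun y => adj (J y) a b) z fun w => adj1 (J z) (J' w) a b :=
  ((HD.sum _ fun e => HD.gm hJ e e).ite _).sub (HD.gm hJ a b)

theorem HD.Wv (a c : Fin 3) : HD 𝕜 (fun y => Wv (J y) a c) z
    fun w => ∑ b, (Gc.adj (J z) a b * J' w b c + adj1 (J z) (J' w) a b * J z b c) :=
  HD.sum _ fun b => (HD.adj hJ a b).mul (hJ b c)

theorem HD.G2 : HD 𝕜 (fun y => G2 n (J y)) z fun w => dG2 n (J z) (J' w) :=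
  (HD.dot (u := fun y => Gc.Nv n (J y)) (v := fun y => Gc.Nv n (J y)) (HD.Nv n hJ)
    (HD.Nv n hJ)).congr fun w => by rw [dG2, dot_comm (N1 _ _ _), two_mul]

theorem HD.HP (hK : ∀ a b c, HD 𝕜 (K · a b c) z (K' · a b c)) :
    HD 𝕜 (fun y => HP n (J y) (K y)) z fun w => dHP n (J z) (K z) (J' w) (K' w) :=
  (HD.sum _ fun a => HD.sum _ fun b => (HD.adj hJ a b).mul
    (HD.dot (u := fun y => K y a b) (v := fun y => Gc.Nv n (J y)) (hK a b)
      (HD.Nv n hJ))).neg.congr fun w => by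
    refine congrArg _ (Finset.sum_congr rfl fun a _ => Finset.sum_congr rfl fun b _ => ?_)
    ring

theorem HD.EL (hK : ∀ a b c, HD 𝕜 (K · a b c) z (K' · a b c)) (hx : ∀ c, HD 𝕜 (x · c) z (x' · c)) :
    HD 𝕜 (fun y => EL n (x y) (J y) (K y)) z
      fun w => dEL n (x z) (J z) (K z) (x' w) (J' w) (K' w) :=
  (((HD.HP n hJ hK).const_mul 2).sub ((HD.dot (v := fun y => Gc.Nv n (J y)) hx (HD.Nv n hJ)).mul
    (HD.G2 n hJ))).congr fun w => by rw [dEL]; ring

end Der

/-- on a frame the derivative of `G2` is `2 ∑ ⟨W a, J' a⟩` -/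
theorem Fr.dG2_eq {n : Fin 3 → R} {J : Fin 3 → Fin 3 → R} (h : Fr n J) (J' : Fin 3 → Fin 3 → R) :
    dG2 n J J' = 2 * ∑ a, dot (Wv J a) (J' a) := by
  have e : ∑ a, dot (Wv J a) (J' a) = ∑ a, ∑ c, cof J a c *
      (cr (J (a + 1)) (J' (a + 2)) c + cr (J' (a + 1)) (J (a + 2)) c) := by
    simp [dot, Wv, adj, gm, cof, cr, Fin.sum_univ_three, f11, f12, f21, f22]; ring
  rw [e, dG2]
  simp only [h.cof_eq, dot, N1, Fin.sum_univ_three]
  ring

end Crest.Agent.N250.Gc

end
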