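import Crest.Agent.N250.Wt.Defs
import Crest.Agent.N250.Gc.Par
import Crest.Agent.N250.Gc.Lin

/-!
# Row 250, parametrised surfaces (helper48), part 6: perturbations of the identity, graphs
-/

set_option autoImplicit false
set_option linter.unusedSectionVars false

noncomputable section

namespace Crest.Agent.N250

open Crest.Agent.N222 Gc

namespace Mov

variable {R : Type} [CommRing R] (S : Mov R (Fin 3))

/-- first derivatives of `u Z` from abstract jets -/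
def gJ (Z : Fin 3 → R) (j0 : R) (j1 : Fin 3 → R) (a c : Fin 3) : R :=
  j1 a * Z c + j0 * S.D a (Z c)

/-- second derivatives of `u Z` from abstract jets -/
def gK (Z : Fin 3 → R) (j0 : R) (j1 : Fin 3 → R) (j2 : Fin 3 → Fin 3 → R) (a b c : Fin 3) : R :=
  j2 a b * Z c + j1 b * S.D a (Z c) + j1 a * S.D b (Z c) + j0 * S.D a (S.D b (Z c))

variable [Algebra ℝ R] {S}

theorem two_half : (2 : R) * algebraMap ℝ R (1 / 2) = 1 := by
  rw [← map_ofNat (algebraMap ℝ R) 2, ← map_mul]; norm_num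

theorem two_LL (S : Mov R (Fin 3)) (f : R) :
    2 * S.LL f = 2 * S.lap f - S.dr f + f + 2 * S.a2 * f := by
  simp only [LL, Mi, Mov.Pi, Nat.cast_zero]
  linear_combination (-(S.dr f - f)) * (two_half (R := R))

namespace IsHyp

variable (H : S.IsHyp)
include H

theorem sh : Sh S.n S.B := ⟨H.nn, H.B_symm, H.n_B⟩

theorem Jm_x : S.Jm S.x = P0 S.n := funext fun a => funext fun c => H.Pn a c

theorem Km_x : S.Km S.x = K0 S.n S.B := funext fun a => funext fun b => funext fun c => H.DP a b c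

theorem Jm_add (X Y : Fin 3 → R) : S.Jm (X + Y) = S.Jm X + S.Jm Y :=
  funext fun _ => funext fun _ => H.add _ _ _

theorem Km_add (X Y : Fin 3 → R) : S.Km (X + Y) = S.Km X + S.Km Y :=
  funext fun a => funext fun b => funext fun c => by
    simp only [Km, _root_.Pi.add_apply, H.add]

theorem Jm_mul (u : R) (Z : Fin 3 → R) :
    S.Jm (fun c => u * Z c) = S.gJ Z u fun a => S.D a u :=
  funext fun a => funext fun c => by rw [Jm, gJ, H.mul]; ring

theorem Km_mul (u : R) (Z : Fin 3 → R) :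
    S.Km (fun c => u * Z c) = S.gK Z u (fun a => S.D a u) fun a b => S.D a (S.D b u) :=
  funext fun a => funext fun b => funext fun c => by
    simp only [Km, gK, H.mul, H.add]; ring

theorem NX_x : S.NX S.x = S.n := by rw [NX, H.Jm_x, Nv_P0]

theorem GX_x : S.GX S.x = 1 := by rw [GX, H.Jm_x, G2_P0 H.nn]

theorem WX_x (a c : Fin 3) : S.WX S.x a c = S.P a c := by
  rw [WX, H.Jm_x, Wv_P0 H.nn, H.Pn]; rfl

theorem HX_x : S.HX S.x = S.h := by rw [HX, H.Jm_x, H.Km_x, H.sh.HP_P0]; rfl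

theorem ELX_x : S.ELX S.x = 2 * S.h - S.xn := by
  rw [ELX, EL, ← HX, ← GX, ← NX, H.HX_x, H.GX_x, H.NX_x, mul_one]; rfl

theorem dr_add3 (f g : R) : S.dr (f + g) = S.dr f + S.dr g := by
  simp only [dr, H.add, mul_add, Finset.sum_add_distrib]

theorem dr_mul3 (f g : R) : S.dr (f * g) = f * S.dr g + S.dr f * g := by
  simp only [dr, H.mul, Fin.sum_univ_three]; ring

theorem dr_x3 (c : Fin 3) : S.dr (S.x c) = S.x c - S.xn * S.n c := by
  have := H.P_apply S.x c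
  simp only [H.symm c] at this
  simp only [dr, xn, Pre.P, Fin.sum_univ_three] at this ⊢
  linear_combination this

theorem dr_n3 (c : Fin 3) : S.dr (S.n c) = S.D c S.xn := by
  rw [H.D_xn]
  exact Finset.sum_congr rfl fun b _ => by rw [H.B_symm c b, mul_comm]; rfl

/-- on a shrinker `x · ∇ n = 2 ∇ h` -/
theorem dr_n_shr (hS : S.xn = 2 * S.h) (c : Fin 3) : S.dr (S.n c) = 2 * S.D c S.h := by
  rw [H.dr_n3, hS, H.mul, H.toIsDS.D_two]; ring

theorem N_dir (X v : Fin 3 → R) : dot (fun c => S.dir v (X c)) (S.NX X) = 0 := by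
  have h0 := H.N_J X 0
  have h1 := H.N_J X 1
  have h2 := H.N_J X 2
  simp only [dot, Pre.dir, Jm, Fin.sum_univ_three] at h0 h1 h2 ⊢
  linear_combination v 0 * h0 + v 1 * h1 + v 2 * h2

/-- the drift identity: `⟨X, N⟩ = ⟨X - x · ∇ X, N⟩` -/
theorem drift (X : Fin 3 → R) : dot X (S.NX X) = dot (fun c => X c - S.dr (X c)) (S.NX X) := by
  have h := H.N_dir X S.x
  simp only [dot, Pre.dir, dr, Fin.sum_univ_three] at h ⊢
  linear_combination h

theorem drift_add (Y : Fin 3 → R) : dot (S.x + Y) (S.NX (S.x + Y)) =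
    S.xn * dot S.n (S.NX (S.x + Y)) + dot (fun c => Y c - S.dr (Y c)) (S.NX (S.x + Y)) := by
  rw [H.drift]
  simp only [_root_.Pi.add_apply, H.dr_add3, H.dr_x3, dot, Fin.sum_univ_three]
  ring

/-- the drift is exactly linear after division by `⟨Z, N⟩` -/
theorem drift_graph (u : R) (Z Y : Fin 3 → R) {X : Fin 3 → R}
    (hX : X = S.x + ((fun c => u * Z c) + Y)) :
    dot X (S.NX X) = dot Z (S.NX X) * (S.xn + u - S.dr u) - dot (fun c =>
      S.xn * (Z c - S.n c) + u * S.dr (Z c) - Y c + S.dr (Y c)) (S.NX X) := by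
  have := H.drift_add ((fun c => u * Z c) + Y)
  rw [← hX] at this
  rw [this]
  simp only [_root_.Pi.add_apply, H.dr_add3, H.dr_mul3, dot, Fin.sum_univ_three]
  ring

theorem D_dot_n (Y : Fin 3 → R) (a : Fin 3) :
    S.D a (dot Y S.n) = dot Y (S.B a) + dot (S.Jm Y a) S.n := H.D_dot _ _ _

theorem lap_dot_n (Y : Fin 3 → R) : S.lap (dot Y S.n) = ∑ a, dot (S.Km Y a a) S.n
    + 2 * ∑ a, ∑ b, S.B a b * S.Jm Y a b + S.dir Y S.h - S.a2 * dot Y S.n := by
  have h0 := H.dv_B 0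
  have h1 := H.dv_B 1
  have h2 := H.dv_B 2
  simp only [Pre.lap, H.D_dot_n, H.add, H.D_dot]
  simp only [dot, Pre.dir, Km, Jm, Mov.B, Fin.sum_univ_three] at h0 h1 h2 ⊢
  linear_combination Y 0 * h0 + Y 1 * h1 + Y 2 * h2

/-- linearisation of `HX` -/
theorem dHP_x (Y : Fin 3 → R) : dHP S.n (P0 S.n) (K0 S.n S.B) (S.Jm Y) (S.Km Y) =
    3 * S.h * S.dv Y - S.lap (dot Y S.n) - S.a2 * dot Y S.n + S.dir Y S.h := by
  rw [H.sh.dHP_P0 (H.fr Y).nJ (H.n_K Y), H.lap_dot_n]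
  simp only [Mov.h, Pre.dv, Jm]
  ring

theorem dG2_x (Y : Fin 3 → R) : dG2 S.n (P0 S.n) (S.Jm Y) = 2 * S.dv Y :=
  dG2_P0 H.nn (H.fr Y).nJ

theorem x_N1 (Y : Fin 3 → R) : dot S.x (N1 S.n (P0 S.n) (S.Jm Y)) =
    S.xn * S.dv Y - S.dr (dot Y S.n) + S.dir Y S.xn := by
  simp only [dr, Pre.dir, H.D_dot_n, H.D_xn, dot.eq_1 S.x, N1_P0]
  simp only [dot, xn, Pre.dv, Jm, Fin.sum_univ_three, H.B_symm 1 0, H.B_symm 2 0, H.B_symm 2 1]
  ring

/-- linearisation of `ELX` at the identity -/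
theorem dEL_x (Y : Fin 3 → R) : dEL S.n S.x (P0 S.n) (K0 S.n S.B) Y (S.Jm Y) (S.Km Y) =
    -(2 * S.LL (dot Y S.n)) + 3 * (2 * S.h - S.xn) * S.dv Y + S.dir Y (2 * S.h - S.xn) := by
  have e : S.dir Y (2 * S.h - S.xn) = 2 * S.dir Y S.h - S.dir Y S.xn := by
    simp only [Pre.dir, H.toIsDS.D_sub, H.mul, H.toIsDS.D_two, Fin.sum_univ_three]; ring
  rw [dEL, H.dHP_x, H.dG2_x, H.x_N1, Nv_P0, G2_P0 H.nn, two_LL, e,
    show dot S.x S.n = S.xn from rfl]
  ring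

/-- linearisation of `ELX` at a shrinker -/
theorem dEL_shr (hS : S.xn = 2 * S.h) (Y : Fin 3 → R) :
    dEL S.n S.x (P0 S.n) (K0 S.n S.B) Y (S.Jm Y) (S.Km Y) = -(2 * S.LL (dot Y S.n)) := by
  rw [H.dEL_x, hS, sub_self]
  simp only [Pre.dir, H.toIsDS.D_zero, mul_zero, zero_mul, Finset.sum_const_zero, add_zero]

/-! ### graphs along a field `Z` with `⟨Z, n⟩ = 1`, abstract jets -/

section Graph

variable {Z : Fin 3 → R} (hZ : dot Z S.n = 1) {j0 : R} {j1 : Fin 3 → R} {j2 : Fin 3 → Fin 3 → R}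
  (h1 : ∑ a, S.n a * j1 a = 0) (h2 : ∀ b, ∑ a, S.n a * j2 a b = 0)

include h1 in
theorem n_gJ (c : Fin 3) : ∑ a, S.n a * S.gJ Z j0 j1 a c = 0 := by
  have := H.n_D (Z c)
  simp only [gJ, Fin.sum_univ_three] at this h1 ⊢
  linear_combination Z c * h1 + j0 * this

include h1 h2 in
theorem n_gK (b c : Fin 3) : ∑ a, S.n a * S.gK Z j0 j1 j2 a b c = 0 := by
  have e1 := H.n_D (Z c)
  have e2 := H.n_D (S.D b (Z c))
  have e3 := h2 b
  simp only [gK, Fin.sum_univ_three] at e1 e2 e3 h1 ⊢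
  linear_combination Z c * e3 + j1 b * e1 + S.D b (Z c) * h1 + j0 * e2

include hZ

theorem DZ_n (a : Fin 3) : dot (S.Jm Z a) S.n = -dot Z (S.B a) := by
  have := H.D_dot_n Z a
  rw [hZ, H.toIsDS.D_one] at this
  linear_combination -this

theorem gJ_n (a : Fin 3) : dot (S.gJ Z j0 j1 a) S.n = j1 a - j0 * dot Z (S.B a) := by
  have := H.DZ_n hZ a
  simp only [gJ, dot, Jm, Fin.sum_univ_three] at this hZ ⊢
  linear_combination j1 a * hZ + j0 * this

include h1 h2 in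
/-- linearisation of `HP` along a graph -/
theorem dHP_graph : dHP S.n (P0 S.n) (K0 S.n S.B) (S.gJ Z j0 j1) (S.gK Z j0 j1 j2) =
    3 * S.h * (∑ a, S.gJ Z j0 j1 a a) - ∑ a, j2 a a - S.a2 * j0 + j0 * S.dir Z S.h := by
  have e := H.lap_dot_n Z
  have e0 := H.DZ_n hZ 0
  have e1 := H.DZ_n hZ 1
  have e2 := H.DZ_n hZ 2
  rw [hZ] at e
  simp only [Pre.lap, H.toIsDS.D_one, H.toIsDS.D_zero, Finset.sum_const_zero] at e
  rw [H.sh.dHP_P0 (H.n_gJ h1) (H.n_gK h1 h2), show ∑ a, S.B a a = S.h from rfl]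
  simp only [gJ, gK, dot, Jm, Km, Fin.sum_univ_three] at e e0 e1 e2 hZ ⊢
  linear_combination j0 * e - (j2 0 0 + j2 1 1 + j2 2 2) * hZ
    - 2 * j1 0 * e0 - 2 * j1 1 * e1 - 2 * j1 2 * e2

/-- linearisation of `⟨Z, N⟩` -/
theorem Z_N1 (J' : Fin 3 → Fin 3 → R) :
    dot Z (N1 S.n (P0 S.n) J') = ∑ a, J' a a - ∑ c, Z c * dot (J' c) S.n := by
  simp only [dot.eq_1 Z, N1_P0, Fin.sum_univ_three] at hZ ⊢
  linear_combination (J' 0 0 + J' 1 1 + J' 2 2) * hZ

theorem drZ_n : dot (fun c => S.dr (Z c)) S.n = -S.dir Z S.xn := by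
  have e0 := H.DZ_n hZ 0
  have e1 := H.DZ_n hZ 1
  have e2 := H.DZ_n hZ 2
  simp only [Pre.dir, H.D_xn]
  simp only [dr, dot, Jm, Fin.sum_univ_three, H.B_symm 1 0, H.B_symm 2 0, H.B_symm 2 1]
    at e0 e1 e2 ⊢
  linear_combination S.x 0 * e0 + S.x 1 * e1 + S.x 2 * e2

end Graph

end IsHyp

end Mov

end Crest.Agent.N250

end
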