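import Crest.Agent.N250.Gc.Var

/-!
# Row 250, parametrised surfaces (helper48), part 9: the first variation, term by term
-/

set_option autoImplicit false
open MeasureTheory Set Filter Topology

noncomputable section

namespace Crest.Agent.N250.WS.Geo

open Crest.Agent.N222 Gc Cj

variable {X : Type} [TopologicalSpace X] [MeasurableSpace X] (G : Geo X)

/-- `exp (-⟨Y, Y⟩ / 4)` -/
abbrev eX (Y : Fin 3 → G.SmC) (p : X) : ℂ := Complex.exp (-(dot Y Y).1 p / 4)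

/-- the area density -/
abbrev sq (Y : Fin 3 → G.SmC) (p : X) : ℂ := Complex.sqrt ((G.SC.GX Y).1 p)

/-- bulk density -/
def bulkC (g : G.SmC) (Y V : Fin 3 → G.SmC) (p : X) : ℂ :=
  g.1 p * (G.eX Y p * ((G.sq Y p)⁻¹ ^ 3 * (G.SC.ELX Y).1 p * dot (val (G.SC.NX Y) p) (val V p)) / 2)

/-- flux density -/
def fluxC (g : G.SmC) (Y V : Fin 3 → G.SmC) (p : X) : ℂ :=
  G.eX Y p * ((G.sq Y p)⁻¹ * ∑ a, (G.SC.D a g).1 p * dot (val (G.SC.WX Y a) p) (val V p))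

theorem varC_eq (g g' : G.SmC) (Y V : Fin 3 → G.SmC) (p : X) :
    G.varC g Y g' V p = G.lagC g' Y p + G.bulkC g Y V p - G.fluxC g Y V p := by
  simp only [varC, lagC, bulkC, fluxC]; ring

variable [BorelSpace X] [T2Space X] [SecondCountableTopology X] {K : Set X}

theorem intg_of (hK : IsCompact K) {f : X → ℂ} (w : G.SmC) (h0 : ∀ p, p ∉ K → f p = 0)
    (h1 : ∀ p ∈ K, f p = w.1 p) : Integrable f G.M.mu := by
  have : f = K.indicator w.1 := funext fun p => by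
    by_cases hp : p ∈ K
    · rw [indicator_of_mem hp, h1 p hp]
    · rw [indicator_of_notMem hp, h0 p hp]
  rw [this, integrable_indicator_iff hK.measurableSet]
  exact (G.contC w).continuousOn.integrableOn_compact hK

variable (hK : IsCompact K) {g : G.SmC} {Y : Fin 3 → G.SmC}
  (hs : ∀ p ∈ K, (G.SC.GX Y).1 p ∈ Complex.slitPlane)
include hK hs

theorem intg_lagC (hg : ∀ p, p ∉ K → g.1 p = 0) : Integrable (G.lagC g Y) G.M.mu := by
  obtain ⟨si, -, h2⟩ := G.exists_si hK _ hs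
  refine G.intg_of hK (g * (G.eY Y * (si * G.SC.GX Y)))
    (fun p hp => by rw [lagC, hg p hp, zero_mul]) fun p hp => ?_
  have : Complex.sqrt ((G.SC.GX Y).1 p) ≠ 0 := fun h0 => Complex.slitPlane_ne_zero (hs p hp)
    (by rw [← Act.sqrt_sq' (z := (G.SC.GX Y).1 p), h0]; simp)
  change _ = g.1 p * ((G.eY Y).1 p * (si.1 p * (G.SC.GX Y).1 p))
  rw [h2 p hp, lagC, eY_apply]
  congr 2
  field_simp
  exact Act.sqrt_sq'

theorem intg_bulkC (hg : ∀ p, p ∉ K → g.1 p = 0) (V : Fin 3 → G.SmC) :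
    Integrable (G.bulkC g Y V) G.M.mu := by
  obtain ⟨si, -, h2⟩ := G.exists_si hK _ hs
  refine G.intg_of hK (g * (G.eY Y * (si ^ 3 * G.SC.ELX Y * dot (G.SC.NX Y) V)
    * algebraMap ℂ _ 2⁻¹)) (fun p hp => by rw [bulkC, hg p hp, zero_mul]) fun p hp => ?_
  rw [← Cj.ev_apply]
  simp only [map_mul, map_pow, map_dot, Cj.ev_apply, h2 p hp, eY_apply, algebraMap_apply]
  rfl

theorem intg_fluxC (hg : tsupport g.1 ⊆ K) (V : Fin 3 → G.SmC) :
    Integrable (G.fluxC g Y V) G.M.mu := by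
  obtain ⟨si, -, h2⟩ := G.exists_si hK _ hs
  refine G.intg_of hK (G.eY Y * (si * ∑ a, G.SC.D a g * dot (G.SC.WX Y a) V))
    (fun p hp => by
      simp only [fluxC, G.D_zero_off fun h => hp (hg h), zero_mul, Finset.sum_const_zero,
        mul_zero]) fun p hp => ?_
  rw [← Cj.ev_apply]
  simp only [map_mul, map_sum, map_dot, Cj.ev_apply, h2 p hp, eY_apply]
  rfl

theorem int_varC {g' : G.SmC} (hg : tsupport g.1 ⊆ K) (hg' : ∀ p, p ∉ K → g'.1 p = 0)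
    (V : Fin 3 → G.SmC) : ∫ p, G.varC g Y g' V p ∂G.M.mu =
      G.actC g' Y + ∫ p, G.bulkC g Y V p ∂G.M.mu - ∫ p, G.fluxC g Y V p ∂G.M.mu := by
  have h1 := G.intg_lagC hK hs hg'
  have h2 := G.intg_bulkC hK hs
    (fun p hp => image_eq_zero_of_notMem_tsupport fun h => hp (hg h)) V
  simp only [varC_eq]
  rw [integral_sub (f := fun p => G.lagC g' Y p + G.bulkC g Y V p) (h1.add h2)
    (G.intg_fluxC hK hs hg V), integral_add h1 h2, actC]

omit hK hs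

variable {G}

theorem HFam.fderiv_eq' {W : Type} [NormedAddCommGroup W] [NormedSpace ℂ W] {U : Set W}
    {g : W → G.SmC} {Y : W → Fin 3 → G.SmC} (h : G.HFam K U g Y) {z : W} (hz : z ∈ U) (v : W)
    {g' : G.SmC} {V : Fin 3 → G.SmC} (h0 : ∀ p, p ∉ K → g'.1 p = 0)
    (h1 : ∀ p ∈ K, fderiv ℂ (fun z => (g z).1 p) z v = g'.1 p)
    (h2 : ∀ p ∈ K, ∀ c, fderiv ℂ (fun z => (Y z c).1 p) z v = (V c).1 p)
    (h3 : ∀ p ∈ K, ∀ a c,
      fderiv ℂ (fun z => (G.SC.D a (Y z c)).1 p) z v = (G.SC.D a (V c)).1 p) :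
    fderiv ℂ (fun z => G.actC (g z) (Y z)) z v = G.actC g' (Y z)
      + ∫ p, G.bulkC (g z) (Y z) V p ∂G.M.mu - ∫ p, G.fluxC (g z) (Y z) V p ∂G.M.mu := by
  rw [(h.fderiv_eq hz v h0 h1 h2 h3).2, G.int_varC h.cpt (h.slit z hz) (h.supp z hz) h0]

/-- one complex parameter -/
theorem HFam.hasDerivAt {U : Set ℂ} {g : ℂ → G.SmC} {Y : ℂ → Fin 3 → G.SmC} (h : G.HFam K U g Y)
    {t : ℂ} (ht : t ∈ U) {g' : G.SmC} {V : Fin 3 → G.SmC} (h0 : ∀ p, p ∉ K → g'.1 p = 0)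
    (h1 : ∀ p ∈ K, HasDerivAt (fun z => (g z).1 p) (g'.1 p) t)
    (h2 : ∀ p ∈ K, ∀ c, HasDerivAt (fun z => (Y z c).1 p) ((V c).1 p) t)
    (h3 : ∀ p ∈ K, ∀ a c,
      HasDerivAt (fun z => (G.SC.D a (Y z c)).1 p) ((G.SC.D a (V c)).1 p) t) :
    HasDerivAt (fun z => G.actC (g z) (Y z)) (G.actC g' (Y t)
      + ∫ p, G.bulkC (g t) (Y t) V p ∂G.M.mu - ∫ p, G.fluxC (g t) (Y t) V p ∂G.M.mu) t := by
  rw [← h.fderiv_eq' ht 1 h0 (fun p hp => (h1 p hp).deriv) (fun p hp c => (h2 p hp c).deriv)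
    fun p hp a c => (h3 p hp a c).deriv]
  exact (h.diffOn.differentiableAt (h.op.mem_nhds ht)).hasDerivAt

end Crest.Agent.N250.WS.Geo

end
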