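import Crest.Agent.N250.Gc.Par

/-!
# Row 250, parametrised surfaces (helper48), part 7: localisation by quotients
-/

set_option autoImplicit false

noncomputable section

namespace Crest.Agent.N250.Mov

open Crest.Agent.N222 Gc

variable {R : Type} [CommRing R] {ι : Type} (S : Mov R ι) (I : Ideal R)

/-- the calculus modulo an ideal -/
def quot : Mov (R ⧸ I) ι where
  x a := Ideal.Quotient.mk I (S.x a)
  D a q := Ideal.Quotient.mk I (S.D a q.out)
  T q := Ideal.Quotient.mk I (S.T q.out)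
  n a := Ideal.Quotient.mk I (S.n a)
  V := Ideal.Quotient.mk I S.V

variable {S I} [Fintype ι] [DecidableEq ι] [Algebra ℝ R]

theorem quot_hom (H : S.IsHyp) (hD : ∀ a f, f ∈ I → S.D a f ∈ I)
    (hT : ∀ f g, f - g ∈ I → S.T f - S.T g ∈ I) : S.Hom (S.quot I) (Ideal.Quotient.mk I) where
  x _ := rfl
  D a f := Ideal.Quotient.eq.2 (by
    rw [← H.toIsDS.D_sub]
    exact hD _ _ (Ideal.Quotient.eq.1 (Ideal.Quotient.mk_out _).symm))
  T f := Ideal.Quotient.eq.2 (hT _ _ (Ideal.Quotient.eq.1 (Ideal.Quotient.mk_out _).symm))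
  n _ := rfl
  V := rfl

/-- the axioms pass to surjective images -/
theorem Hom.isHyp {R' : Type} [CommRing R'] [Algebra ℝ R'] {S' : Mov R' ι} {φ : R →+* R'}
    (h : S.Hom S' φ) (H : S.IsHyp) (hs : Function.Surjective φ)
    (hr : ∀ r : ℝ, φ (algebraMap ℝ R r) = algebraMap ℝ R' r) : S'.IsHyp where
  add a f g := by
    obtain ⟨f, rfl⟩ := hs f
    obtain ⟨g, rfl⟩ := hs g
    simp only [← map_add, ← h.D, H.add]
  mul a f g := by
    obtain ⟨f, rfl⟩ := hs f
    obtain ⟨g, rfl⟩ := hs g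
    simp only [← map_add, ← map_mul, ← h.D, H.mul]
  const a r := by rw [← hr, ← h.D, H.const, map_zero]
  symm a b := by rw [← h.toHom.P, ← h.toHom.P, H.symm]
  tan f a := by
    obtain ⟨f, rfl⟩ := hs f
    simp only [← h.toHom.P, ← h.D, ← map_mul, ← map_sum, H.tan f a]
  hess f a b := by
    obtain ⟨f, rfl⟩ := hs f
    rw [← h.toHom.hess, ← h.toHom.hess, H.hess]
  nn := by simp only [← h.n, ← map_mul, ← map_sum, H.nn, map_one]
  Pn a b := by
    rw [← h.toHom.P, H.Pn, map_sub, map_mul, h.n, h.n, apply_ite φ, map_one, map_zero]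

/-- the first variation with a weight `g` that kills the ideal `I` modulo which `si` inverts the
area density -/
theorem IsHyp.first_var_loc {S : Mov R (Fin 3)} (H : S.IsHyp) (hD : ∀ a f, f ∈ I → S.D a f ∈ I)
    (hT : ∀ f g, f - g ∈ I → S.T f - S.T g ∈ I) {X : Fin 3 → R} {si e g : R}
    (hs : si * si * S.GX X - 1 ∈ I) (hg : ∀ f ∈ I, g * f = 0)
    (he : ∀ a, 2 * S.D a e = -(e * dot (S.Jm X a) X)) (Y : Fin 3 → R) :
    g * (2 * (e * si * ∑ a, dot (S.WX X a) fun c => S.D a (Y c)) - e * (si * S.GX X) * dot X Y) =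
      2 * ∑ a, S.D a (g * (e * (si * dot (S.WX X a) Y)))
        - 2 * (e * si * ∑ a, S.D a g * dot (S.WX X a) Y)
        + g * (e * si ^ 3 * S.ELX X * dot (S.NX X) Y) := by
  have h := quot_hom H hD hT
  have H' := h.isHyp H Ideal.Quotient.mk_surjective fun _ => rfl
  set φ := Ideal.Quotient.mk I with hφ
  have hs' : φ si * φ si * (S.quot I).GX (fun c => φ (X c)) = 1 := by
    rw [← h.GX, ← map_mul, ← map_mul, ← map_one φ]; exact Ideal.Quotient.eq.2 hs
  have k := H'.first_var hs' (e := φ e) (fun a => by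
    have := congrArg φ (he a)
    simpa only [map_mul, map_neg, map_ofNat, map_dot, h.D, h.Jm] using this) fun c => φ (Y c)
  have k2 : φ (2 * (e * si * ∑ a, dot (S.WX X a) fun c => S.D a (Y c))
      - e * (si * S.GX X) * dot X Y) = φ (2 * ∑ a, S.D a (e * (si * dot (S.WX X a) Y))
        + e * si ^ 3 * S.ELX X * dot (S.NX X) Y) := by
    simpa only [map_mul, map_sub, map_add, map_sum, map_pow, map_ofNat, map_dot, h.D, h.WX, h.GX,
      h.ELX, h.NX] using k
  have k3 := hg _ (Ideal.Quotient.eq.1 k2)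
  simp only [H.mul _ g, Fin.sum_univ_three] at k3 ⊢
  linear_combination k3

end Crest.Agent.N250.Mov

end
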