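import Crest.Agent.N250.Gc.Quot
import Crest.Agent.N250.Gc.Lin
import Crest.Agent.N250.H.Int
import Crest.Agent.N250.Cj.Ch
import Crest.Agent.N250.Wt.Cut
import Crest.Agent.N250.Wt.Cx
import Crest.Agent.N250.FV.Var
import Crest.Agent.N250.Act.Lag

/-!
# Row 250, parametrised surfaces (helper48), part 8: the first variation of the weighted Gaussian
area of a holomorphic family of complex surfaces
-/

set_option autoImplicit false
open MeasureTheory Set Filter Topology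
open scoped ContDiff

noncomputable section

namespace Crest.Agent.N250

open Crest.Agent.N222 Gc Cj

section HD

variable {V : Type} [NormedAddCommGroup V] [NormedSpace ℂ V] {f f' : V → ℂ} {z : V}

theorem Gc.HD.comp (hf : HD ℂ f z f') {ψ : ℂ → ℂ} {d : ℂ} (hψ : HasDerivAt ψ d (f z)) :
    HD ℂ (fun v => ψ (f v)) z fun w => d * f' w :=
  (HD.of (hψ.comp_hasFDerivAt z hf.diff.hasFDerivAt)).congr fun w => by rw [← hf.eq]; rfl

theorem Gc.HD.of_diff (hf : DifferentiableAt ℂ f z) : HD ℂ f z fun w => fderiv ℂ f z w :=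
  ⟨hf, fun _ => rfl⟩

end HD

theorem exists_isqrt {C : Set ℂ} (hC : IsCompact C) (hs : C ⊆ Complex.slitPlane) :
    ∃ ψ : ℂ → ℂ, ContDiff ℝ ∞ ψ ∧ ∀ᶠ w in 𝓝ˢ C, ψ w = (Complex.sqrt w)⁻¹ ∧ w ≠ 0 := by
  obtain ⟨χ, h1, K, h2, h3, h4, h5, -⟩ := FV.exists_bump hC Complex.isOpen_slitPlane hs
  have h6 : ContDiffOn ℝ ∞ (fun w => (Complex.sqrt w)⁻¹) Complex.slitPlane :=
    ((Complex.differentiableOn_sqrt.inv fun w hw h0 => Complex.slitPlane_ne_zero hw (by
      rw [← Act.sqrt_sq' (z := w), h0]; simp)).contDiffOn Complex.isOpen_slitPlane).restrict_scalars ℝ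
  refine ⟨_, (FV.cd_ind Complex.isOpen_slitPlane h2 h3 (u := fun w => χ w • (Complex.sqrt w)⁻¹)
    (h1.contDiffOn.smul h6) fun w _ hw => by rw [h5 w hw, zero_smul]).1, ?_⟩
  filter_upwards [h4, Complex.isOpen_slitPlane.mem_nhdsSet.2 hs] with w a b
  exact ⟨by rw [indicator_of_mem b, a, one_smul], Complex.slitPlane_ne_zero b⟩

namespace WS.Geo

variable {X : Type} [TopologicalSpace X] [MeasurableSpace X] (G : Geo X)

/-- the Gaussian factor `exp (-⟨Y, Y⟩ / 4)` -/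
def eY (Y : Fin 3 → G.SmC) : G.SmC :=
  ⟨fun p => Complex.exp (-(dot Y Y).1 p / 4), Imm.Sm.comp (dot Y Y).2
    (g := fun w : ℂ => Complex.exp (-w / 4)) (by fun_prop)⟩

theorem eY_apply (Y : Fin 3 → G.SmC) (p : X) :
    (G.eY Y).1 p = Complex.exp (-(dot Y Y).1 p / 4) := rfl

theorem D_eY (Y : Fin 3 → G.SmC) (a : Fin 3) :
    2 * G.SC.D a (G.eY Y) = -(G.eY Y * dot (G.SC.Jm Y a) Y) := by
  have d : ∀ w : ℂ, HasDerivAt (fun w : ℂ => Complex.exp (-w / 4))
      (Complex.exp (-w / 4) * (-1 / 4)) w := fun w => ((hasDerivAt_neg w).div_const 4).cexp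
  have e : G.SC.D a (dot Y Y) = 2 * dot (G.SC.Jm Y a) Y := by
    rw [G.hypC.D_dot, dot_comm Y, two_mul]; rfl
  refine G.extC fun p => ?_
  have h1 := Imm.td_comp (Imm.Sm.diffAt (M := G.M) (dot Y Y).2 p)
    ((d _).hasFDerivAt.restrictScalars ℝ).differentiableAt
  have h2 : (G.SC.D a (G.eY Y)).1 p =
      (G.eY Y).1 p * (-1 / 4) * (G.SC.D a (dot Y Y)).1 p := by
    rw [D_apply, D_apply, show (G.eY Y).1 = fun q => Complex.exp (-(dot Y Y).1 q / 4) from rfl, h1,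
      ((d _).hasFDerivAt.restrictScalars ℝ).fderiv]
    simp [mul_comm]
  rw [e] at h2
  change 2 * (G.SC.D a (G.eY Y)).1 p = -((G.eY Y).1 p * (dot (G.SC.Jm Y a) Y).1 p)
  rw [h2, show (2 * dot (G.SC.Jm Y a) Y).1 p = 2 * (dot (G.SC.Jm Y a) Y).1 p from rfl]
  ring

/-- functions that vanish near `K` -/
def van (K : Set X) : Ideal G.SmC where
  carrier := {f | ∀ᶠ p in 𝓝ˢ K, f.1 p = 0}
  add_mem' {f g} hf hg := by
    rw [mem_setOf] at hf hg ⊢
    filter_upwards [hf, hg] with p a b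
    change f.1 p + g.1 p = 0
    rw [a, b, add_zero]
  zero_mem' := mem_setOf.2 (Eventually.of_forall fun _ => rfl)
  smul_mem' c f hf := by
    rw [mem_setOf] at hf ⊢
    filter_upwards [hf] with p a
    change c.1 p * f.1 p = 0
    rw [a, mul_zero]

theorem mem_van {K : Set X} {f : G.SmC} : f ∈ G.van K ↔ ∀ᶠ p in 𝓝ˢ K, f.1 p = 0 := Iff.rfl

theorem van_D {K : Set X} (a : Fin 3) (f : G.SmC) (hf : f ∈ G.van K) : G.SC.D a f ∈ G.van K := by
  rw [mem_van, eventually_nhdsSet_iff_forall] at hf ⊢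
  intro q hq
  filter_upwards [(hf q hq).eventually_nhds] with p hp
  rw [D_apply, Imm.td_eq_zero_of_notMem (notMem_tsupport_iff_eventuallyEq.2 hp)]
  rfl

theorem D_zero_off {f : G.SmC} {p : X} (hp : p ∉ tsupport f.1) (a : Fin 3) :
    (G.SC.D a f).1 p = 0 := by
  rw [D_apply, Imm.td_eq_zero_of_notMem hp]; rfl

/-- a smooth function equal to `1 / √f` near a compact set -/
theorem exists_si {K : Set X} (hK : IsCompact K) (f : G.SmC)
    (hf : ∀ p ∈ K, f.1 p ∈ Complex.slitPlane) : ∃ si : G.SmC, si * si * f - 1 ∈ G.van K ∧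
      ∀ p ∈ K, si.1 p = (Complex.sqrt (f.1 p))⁻¹ := by
  obtain ⟨ψ, h1, h2⟩ := exists_isqrt (hK.image (G.contC f)) (image_subset_iff.2 hf)
  have h3 := ((G.contC f).tendsto_nhdsSet (mapsTo_image f.1 K)).eventually h2
  refine ⟨⟨fun p => ψ (f.1 p), Imm.Sm.comp f.2 h1⟩, ?_, fun p hp => (h3.self_of_nhdsSet p hp).1⟩
  rw [mem_van]
  filter_upwards [h3] with p hp
  change ψ (f.1 p) * ψ (f.1 p) * f.1 p - 1 = 0
  have := hp.2
  rw [hp.1, ← mul_inv, ← sq, Act.sqrt_sq', inv_mul_cancel₀ this, sub_self]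

variable [BorelSpace X] [T2Space X] [SecondCountableTopology X]

omit [T2Space X] in
theorem intg_csC {f : G.SmC} (hc : HasCompactSupport f.1) : Integrable f.1 G.M.mu :=
  (G.contC f).integrable_of_hasCompactSupport hc

/-- divergence theorem for complex tangential fields -/
theorem int_dvC {Y : Fin 3 → G.SmC} (hc : ∀ a, HasCompactSupport (Y a).1)
    (hT : ∑ a, G.SC.n a * Y a = 0) : Integrable (∑ a, G.SC.D a (Y a)).1 G.M.mu ∧
      ∫ p, (∑ a, G.SC.D a (Y a)).1 p ∂G.M.mu = 0 := by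
  have h1 := G.int_dv (Y := fun a => G.re (Y a))
    (fun a => (hc a).comp_left (g := Complex.re) rfl) (G.hyp.tan_of (by
      have := congrArg G.re hT
      simp only [G.re_sum, G.SC_n, G.re_oR_mul, G.re_zero] at this
      exact this))
  have h2 := G.int_dv (Y := fun a => G.im (Y a))
    (fun a => (hc a).comp_left (g := Complex.im) rfl) (G.hyp.tan_of (by
      have := congrArg G.im hT
      simp only [G.im_sum, G.SC_n, G.im_oR_mul, G.im_zero] at this
      exact this))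
  have e : (∑ a, G.SC.D a (Y a)).1 = fun p => ((G.S.dv fun a => G.re (Y a)).1 p : ℂ)
      + Complex.I * ((G.S.dv fun a => G.im (Y a)).1 p : ℂ) := by
    rw [← G.re_add_im (∑ a, G.SC.D a (Y a))]
    simp only [G.re_sum, G.im_sum, G.re_D, G.im_D]
    rfl
  rw [e]
  refine ⟨h1.1.ofReal.add (h2.1.ofReal.const_mul _), ?_⟩
  rw [integral_add h1.1.ofReal (h2.1.ofReal.const_mul _), integral_const_mul,
    integral_complex_ofReal, integral_complex_ofReal, h1.2, h2.2]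
  simp

/-- the Lagrangian density -/
def lagC (g : G.SmC) (Y : Fin 3 → G.SmC) (p : X) : ℂ :=
  g.1 p * (Complex.exp (-(dot Y Y).1 p / 4) * Complex.sqrt ((G.SC.GX Y).1 p))

/-- the weighted Gaussian area -/
def actC (g : G.SmC) (Y : Fin 3 → G.SmC) : ℂ := ∫ p, G.lagC g Y p ∂G.M.mu

/-- the density of the first variation -/
def varC (g : G.SmC) (Y : Fin 3 → G.SmC) (g' : G.SmC) (Y' : Fin 3 → G.SmC) (p : X) : ℂ :=
  Complex.exp (-(dot Y Y).1 p / 4) * (g'.1 p * Complex.sqrt ((G.SC.GX Y).1 p)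
    + g.1 p * ((Complex.sqrt ((G.SC.GX Y).1 p))⁻¹ ^ 3 * (G.SC.ELX Y).1 p *
      dot (val (G.SC.NX Y) p) (val Y' p)) / 2
    - (Complex.sqrt ((G.SC.GX Y).1 p))⁻¹ *
      ∑ a, (G.SC.D a g).1 p * dot (val (G.SC.WX Y a) p) (val Y' p))

/-- the derivative of the Lagrangian before integration by parts -/
def dlagC (g : G.SmC) (Y : Fin 3 → G.SmC) (g' : ℂ) (y' : Fin 3 → ℂ) (J' : Fin 3 → Fin 3 → ℂ)
    (p : X) : ℂ :=
  Complex.exp (-(dot Y Y).1 p / 4) * (g' * Complex.sqrt ((G.SC.GX Y).1 p)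
    + g.1 p * ((Complex.sqrt ((G.SC.GX Y).1 p))⁻¹ * ∑ a, dot (val (G.SC.WX Y a) p) (J' a)
      - Complex.sqrt ((G.SC.GX Y).1 p) * dot (val Y p) y' / 2))

/-- integration by parts -/
theorem int_dlag {K : Set X} (hK : IsCompact K) {g g' : G.SmC} {Y Y' : Fin 3 → G.SmC}
    (hg : tsupport g.1 ⊆ K) (hg' : ∀ p, p ∉ K → g'.1 p = 0)
    (hs : ∀ p ∈ K, (G.SC.GX Y).1 p ∈ Complex.slitPlane) :
    Integrable (G.varC g Y g' Y') G.M.mu ∧
    ∫ p, G.dlagC g Y (g'.1 p) (val Y' p) (JC Y' p) p ∂G.M.mu = ∫ p, G.varC g Y g' Y' p ∂G.M.mu := by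
  obtain ⟨si, h1, h2⟩ := G.exists_si hK _ hs
  have hg0 : ∀ p, p ∉ K → g.1 p = 0 := fun p hp => image_eq_zero_of_notMem_tsupport fun h => hp (hg h)
  have k := G.hypC.first_var_loc (I := G.van K) G.van_D (fun _ _ _ => by
    change (0 : G.SmC) - 0 ∈ _
    rw [sub_self]; exact zero_mem _) h1 (g := g) (fun f hf => G.extC fun p => by
      change g.1 p * f.1 p = 0
      by_cases hp : p ∈ K
      · rw [Eventually.self_of_nhdsSet (G.mem_van.1 hf) p hp, mul_zero]
      · rw [hg0 p hp, zero_mul]) (G.D_eY Y) Y'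
  have hd := G.int_dvC (Y := fun a => g * (G.eY Y * (si * dot (G.SC.WX Y a) Y')))
    (fun a => HasCompactSupport.intro hK fun p hp => by
      change g.1 p * _ = 0
      rw [hg0 p hp, zero_mul]) (by
      have h0 := G.hypC.n_W Y 0
      have h1 := G.hypC.n_W Y 1
      have h2 := G.hypC.n_W Y 2
      simp only [dot, Fin.sum_univ_three] at h0 h1 h2 ⊢
      linear_combination g * G.eY Y * si * (Y' 0 * h0 + Y' 1 * h1 + Y' 2 * h2))
  set w : G.SmC := G.eY Y * (g' * (si * G.SC.GX Y)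
    + algebraMap ℂ _ 2⁻¹ * g * (si ^ 3 * G.SC.ELX Y * dot (G.SC.NX Y) Y')
    - si * ∑ a, G.SC.D a g * dot (G.SC.WX Y a) Y') with hw
  have hsq : ∀ p ∈ K, Complex.sqrt ((G.SC.GX Y).1 p) ≠ 0 := fun p hp h0 =>
    Complex.slitPlane_ne_zero (hs p hp) (by rw [← Act.sqrt_sq' (z := (G.SC.GX Y).1 p), h0]; simp)
  have hsG : ∀ p ∈ K, si.1 p * (G.SC.GX Y).1 p = Complex.sqrt ((G.SC.GX Y).1 p) := fun p hp => by
    have := hsq p hp
    rw [h2 p hp]
    field_simp
    exact Act.sqrt_sq'.symm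
  have e1 : ∀ p, G.varC g Y g' Y' p = w.1 p := fun p => by
    have e := congrArg (Cj.ev G p) hw
    simp only [map_mul, map_add, map_sub, map_pow, map_sum, map_dot, Cj.ev_apply, eY_apply,
      algebraMap_apply] at e
    rw [e, varC]
    by_cases hp : p ∈ K
    · rw [hsG p hp, h2 p hp]
      unfold val
      ring
    · simp only [hg0 p hp, hg' p hp, G.D_zero_off fun h => hp (hg h), zero_mul, mul_zero,
        Finset.sum_const_zero, zero_div]
  have e2 : ∀ p, G.dlagC g Y (g'.1 p) (val Y' p) (JC Y' p) p =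
      w.1 p + (∑ a, G.SC.D a (g * (G.eY Y * (si * dot (G.SC.WX Y a) Y')))).1 p := fun p => by
    have e := congrArg (Cj.ev G p) hw
    have k' := congrArg (Cj.ev G p) k
    rw [map_add, map_sub, map_mul _ 2 (∑ a, G.SC.D a _)] at k'
    simp only [map_mul, map_add, map_sub, map_pow, map_sum _ (fun a => G.SC.D a g * _),
      map_sum _ (fun a => dot _ _), map_dot, Cj.ev_apply, eY_apply, algebraMap_apply, map_ofNat]
      at e k'
    rw [e, dlagC]
    by_cases hp : p ∈ K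
    · rw [← h2 p hp, ← hsG p hp]
      unfold val JC
      linear_combination (1 / 2 : ℂ) * k'
    · simp only [hg0 p hp, hg' p hp, zero_mul, mul_zero, add_zero] at k' ⊢
      linear_combination (1 / 2 : ℂ) * k'
  have iw : Integrable w.1 G.M.mu := G.intg_csC (HasCompactSupport.intro hK fun p hp => by
    rw [← e1, varC]
    simp only [hg0 p hp, hg' p hp, G.D_zero_off fun h => hp (hg h), zero_mul, mul_zero,
      Finset.sum_const_zero, zero_div, add_zero, sub_self])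
  simp only [funext e1, e2]
  exact ⟨iw, by rw [integral_add iw hd.1, hd.2, add_zero]⟩

variable {V : Type} [NormedAddCommGroup V] [NormedSpace ℂ V]

/-- a holomorphic family of weights `g` (supported in `K`) and complex surfaces `Y` -/
structure HFam (K : Set X) (U : Set V) (g : V → G.SmC) (Y : V → Fin 3 → G.SmC) : Prop where
  cpt : IsCompact K
  op : IsOpen U
  supp : ∀ z ∈ U, tsupport (g z).1 ⊆ K
  hg : ∀ p ∈ K, DifferentiableOn ℂ (fun z => (g z).1 p) U
  hY : ∀ p ∈ K, ∀ c, DifferentiableOn ℂ (fun z => (Y z c).1 p) U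
  hJ : ∀ p ∈ K, ∀ a c, DifferentiableOn ℂ (fun z => (G.SC.D a (Y z c)).1 p) U
  bd : ∃ C : ℝ, ∀ z ∈ U, ∀ p ∈ K, ‖(g z).1 p‖ ≤ C ∧ (∀ c, ‖(Y z c).1 p‖ ≤ C) ∧
    ∀ a c, ‖(G.SC.D a (Y z c)).1 p‖ ≤ C
  slit : ∀ z ∈ U, ∀ p ∈ K, (G.SC.GX (Y z)).1 p ∈ Complex.slitPlane

namespace HFam

variable {G} {K : Set X} {U : Set V} {g : V → G.SmC} {Y : V → Fin 3 → G.SmC}
  (h : G.HFam K U g Y) {z : V} {p : X}
include h

omit [BorelSpace X] [T2Space X] [SecondCountableTopology X] in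
theorem zero (hz : z ∈ U) (hp : p ∉ K) : (g z).1 p = 0 :=
  image_eq_zero_of_notMem_tsupport fun k => hp (h.supp z hz k)

omit [BorelSpace X] [T2Space X] [SecondCountableTopology X] in
theorem hd (hz : z ∈ U) (hp : p ∈ K) : HD ℂ (fun v => G.lagC (g v) (Y v) p) z fun w =>
    G.dlagC (g z) (Y z) (fderiv ℂ (fun v => (g v).1 p) z w)
      (fun c => fderiv ℂ (fun v => (Y v c).1 p) z w)
      (fun a c => fderiv ℂ (fun v => (G.SC.D a (Y v c)).1 p) z w) p := by
  have n := h.op.mem_nhds hz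
  have d1 := HD.of_diff ((h.hg p hp).differentiableAt n)
  have d2 := fun c => HD.of_diff ((h.hY p hp c).differentiableAt n)
  have d3 := fun a c => HD.of_diff ((h.hJ p hp a c).differentiableAt n)
  have d4 := (HD.dot (u := fun v => val (Y v) p) (v := fun v => val (Y v) p) d2 d2).comp
    (ψ := fun w => Complex.exp (-w / 4)) ((hasDerivAt_neg _).div_const 4).cexp
  have s := h.slit z hz p hp
  have fr : Fr (Cj.nC G p) (JC (Y z) p) := ⟨by
    have := congrArg (fun r : ℝ => (r : ℂ)) (nn (G := G) p)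
    simpa [Cj.nC] using this, fun c => n_D _ p⟩
  rw [GX_val] at s
  have d5 := (HD.G2 (J := fun v => JC (Y v) p) (Cj.nC G p) d3).comp (Act.sqrt_hd s)
  simp only [lagC, dlagC, dot_val, GX_val]
  refine (d1.mul (d4.mul d5)).congr fun w => ?_
  have e : ∀ a, val (G.SC.WX (Y z) a) p = Wv (JC (Y z) p) a := fun a => funext fun c => WX_val _ _ a c
  simp only [fr.dG2_eq, e, dot_comm _ (val (Y z) p)]
  ring

omit [BorelSpace X] [T2Space X] [SecondCountableTopology X] in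
theorem bound : ∃ C : ℝ, ∀ z ∈ U, ∀ p ∈ K, ‖G.lagC (g z) (Y z) p‖ ≤ C := by
  obtain ⟨C, hC⟩ := h.bd
  let Φ : ℂ × (Fin 3 → ℂ) × (Fin 3 → ℂ) × (Fin 3 → Fin 3 → ℂ) → ℝ := fun q =>
    ‖q.1‖ * (‖Complex.exp (-dot q.2.1 q.2.1 / 4)‖ * √‖G2 q.2.2.1 q.2.2.2‖)
  have hΦ : Continuous Φ := by
    simp only [Φ, G2, Nv, cr, dot]
    fun_prop
  obtain ⟨B, hB⟩ := (isCompact_closedBall 0 (max C 1)).exists_bound_of_continuousOn hΦ.continuousOn
  refine ⟨B, fun z hz p hp => ?_⟩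
  obtain ⟨a1, a2, a3⟩ := hC z hz p hp
  have h0 : (0 : ℝ) ≤ max C 1 := zero_le_one.trans (le_max_right _ _)
  have := hB ((g z).1 p, val (Y z) p, Cj.nC G p, JC (Y z) p) (by
    simp only [mem_closedBall_zero_iff, Prod.norm_def, max_le_iff, pi_norm_le_iff_of_nonneg h0]
    refine ⟨a1.trans (le_max_left _ _), fun c => (a2 c).trans (le_max_left _ _),
      fun c => le_trans ?_ (le_max_right _ _), fun a c => (a3 a c).trans (le_max_left _ _)⟩
    have e := nn (G := G) p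
    have := Finset.single_le_sum (f := fun a => (G.n a).1 p * (G.n a).1 p)
      (fun a _ => mul_self_nonneg _) (Finset.mem_univ c)
    rw [Cj.nC, Complex.norm_real, Real.norm_eq_abs, ← sq_le_one_iff_abs_le_one, sq]
    linarith)
  refine le_trans (le_of_eq ?_) ((le_abs_self _).trans this)
  simp only [Φ, lagC, norm_mul, dot_val, GX_val]
  congr 2
  rw [← Real.sqrt_sq (norm_nonneg (Complex.sqrt _)), ← norm_pow, Act.sqrt_sq']

theorem dom : ∃ b : X → ℝ, Integrable b G.M.mu ∧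
    (∀ z ∈ U, AEStronglyMeasurable (G.lagC (g z) (Y z)) G.M.mu) ∧
    (∀ᵐ p ∂G.M.mu, DifferentiableOn ℂ (fun z => G.lagC (g z) (Y z) p) U) ∧
    ∀ᵐ p ∂G.M.mu, ∀ z ∈ U, ‖G.lagC (g z) (Y z) p‖ ≤ b p := by
  obtain ⟨C, hC⟩ := h.bound
  refine ⟨K.indicator fun _ => C, (integrable_indicator_iff h.cpt.measurableSet).2
    (integrableOn_const h.cpt.measure_lt_top.ne), fun z _ => ?_,
    Eventually.of_forall fun p => ?_, Eventually.of_forall fun p z hz => ?_⟩
  · exact ((G.contC _).measurable.mul ((G.contC (G.eY (Y z))).measurable.mul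
      ((G.contC _).measurable.pow_const _))).aestronglyMeasurable
  · by_cases hp : p ∈ K
    · exact fun z hz => (h.hd hz hp).diff.differentiableWithinAt
    · exact (differentiableOn_const (0 : ℂ)).congr fun z hz => by
        rw [lagC, h.zero hz hp, zero_mul]
  · by_cases hp : p ∈ K
    · rw [indicator_of_mem hp]; exact hC z hz p hp
    · rw [indicator_of_notMem hp, lagC, h.zero hz hp, zero_mul, norm_zero]

/-- the weighted Gaussian area is holomorphic -/
theorem diffOn : DifferentiableOn ℂ (fun z => G.actC (g z) (Y z)) U := by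
  obtain ⟨b, h1, h2, h3, h4⟩ := h.dom
  exact H.int_diffOn h.op h1 h2 h3 h4

theorem norm_le : ∃ C : ℝ, ∀ z ∈ U, ‖G.actC (g z) (Y z)‖ ≤ C := by
  obtain ⟨b, h1, -, -, h4⟩ := h.dom
  exact ⟨_, fun z hz => norm_integral_le_of_norm_le h1 (h4.mono fun p hp => hp z hz)⟩

/-- FIRST VARIATION of the weighted Gaussian area -/
theorem fderiv_eq (hz : z ∈ U) (v : V) {g' : G.SmC} {Y' : Fin 3 → G.SmC}
    (h0 : ∀ p, p ∉ K → g'.1 p = 0)
    (h1 : ∀ p ∈ K, fderiv ℂ (fun z => (g z).1 p) z v = g'.1 p)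
    (h2 : ∀ p ∈ K, ∀ c, fderiv ℂ (fun z => (Y z c).1 p) z v = (Y' c).1 p)
    (h3 : ∀ p ∈ K, ∀ a c,
      fderiv ℂ (fun z => (G.SC.D a (Y z c)).1 p) z v = (G.SC.D a (Y' c)).1 p) :
    Integrable (G.varC (g z) (Y z) g' Y') G.M.mu ∧
    fderiv ℂ (fun z => G.actC (g z) (Y z)) z v = ∫ p, G.varC (g z) (Y z) g' Y' p ∂G.M.mu := by
  obtain ⟨b, k1, k2, k3, k4⟩ := h.dom
  obtain ⟨i1, i2⟩ := G.int_dlag h.cpt (g' := g') (Y' := Y') (h.supp z hz) h0 (h.slit z hz)
  refine ⟨i1, ((H.int_fderiv h.op k1 k2 k3 k4 hz v).2.trans ?_).trans i2⟩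
  refine integral_congr_ae (Eventually.of_forall fun p => ?_)
  by_cases hp : p ∈ K
  · simp only [(h.hd hz hp).eq, h1 p hp, h2 p hp, h3 p hp]
    rfl
  · have e : (fun v => G.lagC (g v) (Y v) p) =ᶠ[𝓝 z] fun _ => 0 :=
      (h.op.eventually_mem hz).mono fun v hv => by simp only [lagC, h.zero hv hp, zero_mul]
    simp only [e.fderiv_eq, dlagC, h.zero hz hp, h0 p hp]
    simp

end HFam

end WS.Geo

end Crest.Agent.N250

end
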